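import Crest.Agent.X212.Std94.Proj

/-! Classes of functions closed under constants, sums and application; `Pi` preserves them. -/

set_option linter.unusedSectionVars false
noncomputable section
namespace Crest.Agent.X212.Std94
open scoped Manifold ContDiff Topology InnerProductSpace

/-- a class of functions on `X` -/
structure Kl (X : Type) : Type 1 where
  mem : ∀ {N : Type} [NormedAddCommGroup N] [NormedSpace ℝ N], (X → N) → Prop
  const : ∀ {N : Type} [NormedAddCommGroup N] [NormedSpace ℝ N] (c : N), mem fun _ => c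
  add : ∀ {N : Type} [NormedAddCommGroup N] [NormedSpace ℝ N] {f g : X → N}, mem f → mem g →
    mem fun x => f x + g x
  app : ∀ {N N' : Type} [NormedAddCommGroup N] [NormedSpace ℝ N] [NormedAddCommGroup N']
    [NormedSpace ℝ N'] {f : X → N →L[ℝ] N'} {g : X → N}, mem f → mem g → mem fun x => f x (g x)

section inst
variable {E H : Type*} [NormedAddCommGroup E] [NormedSpace ℝ E] [TopologicalSpace H]
  (I : ModelWithCorners ℝ E H) {M : Type} [TopologicalSpace M] [ChartedSpace H M]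

/-- smooth at a point -/
def smAt (x : M) : Kl M :=
  ⟨fun {N} _ _ f => ContMDiffAt I 𝓘(ℝ, N) ∞ f x, fun _ => contMDiffAt_const,
    fun hf hg => hf.add hg, fun hf hg => hf.clm_apply hg⟩

/-- smooth -/
def smAll : Kl M :=
  ⟨fun {N} _ _ f => ContMDiff I 𝓘(ℝ, N) ∞ f, fun _ => contMDiff_const,
    fun hf hg => hf.add hg, fun hf hg => hf.clm_apply hg⟩

/-- smooth on a set -/
def smOn (O : Set M) : Kl M :=
  ⟨fun {N} _ _ f => ContMDiffOn I 𝓘(ℝ, N) ∞ f O, fun _ => contMDiffOn_const,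
    fun hf hg => hf.add hg, fun hf hg => hf.clm_apply hg⟩

end inst

namespace Kl
variable {X : Type} {K : Kl X} {N N' N'' : Type} [NormedAddCommGroup N] [NormedSpace ℝ N]
  [NormedAddCommGroup N'] [NormedSpace ℝ N'] [NormedAddCommGroup N''] [NormedSpace ℝ N'']
  {f g : X → N}

theorem clm (L : N →L[ℝ] N') (hf : K.mem f) : K.mem fun x => L (f x) := K.app (K.const L) hf

theorem bil (B : N →L[ℝ] N' →L[ℝ] N'') {g : X → N'} (hf : K.mem f) (hg : K.mem g) :
    K.mem fun x => B (f x) (g x) := K.app (clm B hf) hg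

theorem neg (hf : K.mem f) : K.mem fun x => -f x := clm (-ContinuousLinearMap.id ℝ N) hf

theorem sub (hf : K.mem f) (hg : K.mem g) : K.mem fun x => f x - g x := by
  simpa only [sub_eq_add_neg] using K.add hf (neg hg)

theorem fsum {κ : Type*} (s : Finset κ) {f : κ → X → N} (hf : ∀ i, K.mem (f i)) :
    K.mem fun x => ∑ i ∈ s, f i x := by
  classical
  induction s using Finset.induction_on with
  | empty => exact K.const 0
  | insert a s ha ih => simpa only [Finset.sum_insert ha] using K.add (hf a) ih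

theorem comp {f : X → N' →L[ℝ] N''} {g : X → N →L[ℝ] N'} (hf : K.mem f) (hg : K.mem g) :
    K.mem fun x => f x ∘L g x := bil (ContinuousLinearMap.compL ℝ N N' N'') hf hg

theorem mulL {f g : X → N →L[ℝ] N} (hf : K.mem f) (hg : K.mem g) : K.mem fun x => f x * g x :=
  comp hf hg

theorem smul {f : X → ℝ} (hf : K.mem f) (hg : K.mem g) : K.mem fun x => f x • g x :=
  bil (ContinuousLinearMap.lsmul ℝ ℝ) hf hg

theorem csmul (c : ℝ) (hg : K.mem g) : K.mem fun x => c • g x := smul (K.const c) hg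

theorem mul {f g : X → ℝ} (hf : K.mem f) (hg : K.mem g) : K.mem fun x => f x * g x := smul hf hg

theorem appc {f : X → N →L[ℝ] N'} (hf : K.mem f) (c : N) : K.mem fun x => f x c :=
  K.app hf (K.const c)

theorem qpL {f : X → N →L[ℝ] N} (hf : K.mem f) : K.mem fun x => qpL (f x) :=
  csmul _ (sub (sub (K.add (mulL hf (mulL hf (mulL hf hf))) (csmul _ (mulL hf (mulL hf hf))))
    (csmul _ (mulL hf hf))) (csmul _ hf))

variable {V V' L : Type} [NormedAddCommGroup V] [InnerProductSpace ℝ V] [FiniteDimensional ℝ V]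
  [NormedAddCommGroup V'] [InnerProductSpace ℝ V'] [FiniteDimensional ℝ V']
  [NormedAddCommGroup L] [InnerProductSpace ℝ L] [FiniteDimensional ℝ L]
  {ι : Type*} [Fintype ι]

theorem inner {f g : X → V} (hf : K.mem f) (hg : K.mem g) : K.mem fun x => ⟪f x, g x⟫_ℝ :=
  bil (innerSL ℝ : V →L[ℝ] V →L[ℝ] ℝ) hf hg

theorem cj {f : X → V' →L[ℝ] V'} {g : X → V →L[ℝ] V} (hf : K.mem f) (hg : K.mem g) :
    K.mem fun x => cj (f x) (g x) :=
  comp (clm (N' := (V →L[ℝ] V') →L[ℝ] V →L[ℝ] V') (ContinuousLinearMap.compL ℝ V V' V') hf)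
    (clm (N' := (V →L[ℝ] V') →L[ℝ] V →L[ℝ] V') (ContinuousLinearMap.compL ℝ V V V').flip hg)

theorem hs {f g : X → V →L[ℝ] V'} (hf : K.mem f) (hg : K.mem g) :
    K.mem fun x => hs (f x) (g x) := by
  simp only [hs_eq_sum (stdOrthonormalBasis ℝ V)]
  exact fsum _ fun i => inner (appc hf _) (appc hg _)

theorem Pi {J : X → V →L[ℝ] V} {ρ : X → ι → V →L[ℝ] V} {j : X → L →L[ℝ] V →L[ℝ] V}
    {J' : X → V' →L[ℝ] V'} {ρ' : X → ι → V' →L[ℝ] V'} {j' : X → L →L[ℝ] V' →L[ℝ] V'}
    (hJ : K.mem J) (hρ : ∀ a, K.mem fun x => ρ x a) (hj : K.mem j) (hJ' : K.mem J')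
    (hρ' : ∀ a, K.mem fun x => ρ' x a) (hj' : K.mem j') :
    K.mem fun x => Pi (J x) (ρ x) (j x) (J' x) (ρ' x) (j' x) :=
  mulL (qpL (neg (fsum _ fun a => cj (hρ' a) (hρ a))))
    (mulL (K.add (K.const _) (csmul _ (fsum _ fun _ => cj (appc hj' _) (appc hj _))))
      (csmul _ (sub (K.const _) (cj hJ' hJ))))

end Kl

end Crest.Agent.X212.Std94
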