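import Crest.Agent.X212.Std94.Gau
import Crest.Agent.X212.Std94.Kl
import Crest.Agent.X212.Eqv71.PE
import Crest.Agent.X212.Wz78.On
import Crest.Agent.X212.Sob92.Bas

/-! STD on `An/Gauge`: `pg` is a polynomial in `ρ, J, j`; `om, pp, pm, pg, p1, p2` are smooth
orthogonal projector fields and stay in every class of functions containing the data. -/

set_option autoImplicit false
set_option linter.unusedSectionVars false
noncomputable section
namespace Crest.Agent.X212.Std94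
open Quaternion Module Finset An
open Eqv71 (hsL_opL opL_hsL inner_hsL inner_trn inner_trn' idx_apply ridx_ridx inner_ridx idx_eq)
open scoped Manifold ContDiff Topology InnerProductSpace

variable {E : Type} [NormedAddCommGroup E] [NormedSpace ℝ E] [FiniteDimensional ℝ E]
  [MeasurableSpace E] [BorelSpace E]
  {HM : Type} [TopologicalSpace HM] {I : ModelWithCorners ℝ E HM}
  {M : Type} [TopologicalSpace M] [ChartedSpace HM M] [IsManifold I ∞ M]
  [MeasurableSpace M] {ι : Type} [Fintype ι] {lam : Type} [Fintype lam]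
  {B : Base M ι lam} {m m' : Md M ι lam} {x : M}

/-- the transpose as a continuous linear map -/
def trL {κ κ' : Type} [Fintype κ] [Fintype κ'] : CL (CL (Eu κ) (Eu κ')) (CL (Eu κ') (Eu κ)) :=
  LinearMap.toContinuousLinearMap
    { toFun := trn
      map_add' := fun S T => ContinuousLinearMap.ext fun z => ext_inner_left ℝ fun y => by
        simp only [inner_trn', add_apply, inner_add_left, inner_add_right]
      map_smul' := fun c T => ContinuousLinearMap.ext fun z => ext_inner_left ℝ fun y => by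
        simp only [inner_trn', smul_apply, real_inner_smul_left, real_inner_smul_right,
          RingHom.id_apply] }

theorem trL_apply {κ κ' : Type} [Fintype κ] [Fintype κ'] (T : CL (Eu κ) (Eu κ')) :
    trL T = trn T := rfl

/-- the skew part -/
def skL {κ : Type} [Fintype κ] : CL (En κ) (En κ) := (1 / 2 : ℝ) • (1 - trL)

theorem skL_apply {κ : Type} [Fintype κ] (T : En κ) : skL T = (1 / 2 : ℝ) • (T - trn T) := rfl

/-- the projector onto the intertwiners `m → m'` at `x` -/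
abbrev Pix (m m' : Md M ι lam) (x : M) : CL (CL m.V m'.V) (CL m.V m'.V) :=
  Pi m.J (fun a => m.ρ a x) (m.j x) m'.J (fun a => m'.ρ a x) (m'.j x)

/-- the polynomial formula for `pg` -/
def pgF {κ : Type} [Fintype κ] [DecidableEq κ] (J : En κ) (ρ : ι → En κ)
    (j : CL (Eu lam) (En κ)) : CL (HS κ) (HS κ) := hsL ∘L skL ∘L Pi J ρ j J ρ j ∘L opL

theorem pgF_apply {κ : Type} [Fintype κ] [DecidableEq κ] (J : En κ) (ρ : ι → En κ)
    (j : CL (Eu lam) (En κ)) (ξ : HS κ) : pgF J ρ j ξ = hsL (skL (Pi J ρ j J ρ j (opL ξ))) := by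
  simp only [pgF, ContinuousLinearMap.comp_apply]

theorem itx_Pix (hB : B.OK I) (H : PMx B m x) (H' : PMx B m' x) (A : CL m.V m'.V) :
    Itx m m' x (Pix m m' x A) :=
  let ⟨_, _, h⟩ := exists_bx hB x
  itw_Pi H H' h.of.toON h.lf A

theorem Pix_of_itx (hB : B.OK I) (H : PMx B m x) (H' : PMx B m' x) {A : CL m.V m'.V}
    (i : Itx m m' x A) : Pix m m' x A = A :=
  let ⟨_, _, h⟩ := exists_bx hB x
  i.Pi H H' h.of.toON h.lf

theorem pg_eq (hB : B.OK I) (H : PMx B m x) :
    m.pg x = pgF m.J (fun a => m.ρ a x) (m.j x) := by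
  obtain ⟨U, s, u, h⟩ := exists_fx hB H
  refine ContinuousLinearMap.ext fun ξ => ?_
  obtain ⟨c, hc⟩ := (h.itx_iff h _).1 (itx_Pix hB H H (opL ξ))
  have e : pgF m.J (fun a => m.ρ a x) (m.j x) ξ = hsL (Xi u u c.im) := by
    rw [pgF_apply, hc, skL_apply, trn_Xi, ← map_sub (Xi u u), ← map_smul (Xi u u)]
    congr 2
    ext <;> simp <;> ring
  rw [e]
  refine h.pg_eq_of (by simp) fun d hd => ?_
  rw [inner_hs', opL_hsL, ← hs_Pi H H h.of.toON h.lf _ ((h.itx_iff h _).2 ⟨d, rfl⟩), hc, hs_Xi]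
  simp [inner_q, hd]

/-! ### classes of functions -/

namespace Kl
variable {X : Type} {K : Kl X}

theorem idx {α V : Type} [Fintype α] [NormedAddCommGroup V] [InnerProductSpace ℝ V]
    {S : X → α → α → ℝ} {T : X → V →L[ℝ] V} (hS : ∀ a b, K.mem fun t => S t a b) (hT : K.mem T) :
    K.mem fun t => idx (S t) (T t) := by
  classical
  let c : α → α → CL (V →L[ℝ] V) (CL (Fm α V) (Fm α V)) := fun a b =>
    ContinuousLinearMap.compL ℝ (Fm α V) V (Fm α V)
      ((PiLp.continuousLinearEquiv 2 ℝ fun _ : α => V).symm.toContinuousLinearMap ∘L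
        ContinuousLinearMap.single ℝ (fun _ : α => V) a) ∘L
      (ContinuousLinearMap.compL ℝ (Fm α V) V V).flip (PiLp.proj 2 (fun _ : α => V) b)
  have e : ∀ t, An.idx (S t) (T t) = ∑ a, ∑ b, S t a b • c a b (T t) := fun t => by
    refine ContinuousLinearMap.ext fun ξ => ?_
    ext1 i
    rw [idx_apply]
    simp [c, Pi.single_apply, Finset.sum_apply]
  simp only [e]
  exact fsum _ fun a => fsum _ fun b => smul (hS a b) (clm _ hT)

variable {κ : Type} [Fintype κ] [DecidableEq κ]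

theorem pgF {J : X → En κ} {ρ : X → ι → En κ} {j : X → CL (Eu lam) (En κ)} (hJ : K.mem J)
    (hρ : ∀ a, K.mem fun t => ρ t a) (hj : K.mem j) : K.mem fun t => pgF (J t) (ρ t) (j t) :=
  comp (K.const _) (comp (K.const _) (comp (Pi hJ hρ hj hJ hρ hj) (K.const _)))

/-- the data of a background and a module along `φ` lie in the class -/
structure Dat (K : Kl X) (B : Base M ι lam) (m : Md M ι lam) (φ : X → M) : Prop where
  P : ∀ a b, K.mem fun t => B.P a b (φ t)
  o : ∀ a b c d, K.mem fun t => B.o a b c d (φ t)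
  p : K.mem fun t => m.p (φ t)
  ρ : ∀ a, K.mem fun t => m.ρ a (φ t)
  j : K.mem fun t => m.j (φ t)

namespace Dat
variable {φ : X → M} (h : Dat K B m φ)
include h

theorem om : K.mem fun t => m.om B (φ t) :=
  csmul _ (fsum _ fun a => fsum _ fun b => fsum _ fun c => fsum _ fun d =>
    smul (h.o a b c d) (mulL (mulL (mulL (h.ρ a) (h.ρ b)) (h.ρ c)) (h.ρ d)))

theorem pp : K.mem fun t => m.pp B (φ t) := csmul _ (sub h.p h.om)
theorem pm : K.mem fun t => m.pm B (φ t) := csmul _ (K.add h.p h.om)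

theorem pgF : K.mem fun t => Std94.pgF m.J (fun a => m.ρ a (φ t)) (m.j (φ t)) :=
  Kl.pgF (K.const _) h.ρ h.j

theorem st (s r : ι × ι) : K.mem fun t => B.st (φ t) s r := by
  simpa only [Base.st, div_eq_mul_inv] using mul (h.o _ _ _ _) (K.const _)

theorem a2 (s r : ι × ι) : K.mem fun t => B.a2 (φ t) s r := by
  simpa only [Base.a2, div_eq_mul_inv] using
    mul (sub (mul (h.P _ _) (h.P _ _)) (mul (h.P _ _) (h.P _ _))) (K.const _)

theorem sd (s r : ι × ι) : K.mem fun t => B.sd (φ t) s r := by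
  simpa only [Base.sd, div_eq_mul_inv] using mul (K.add (h.a2 s r) (h.st s r)) (K.const _)

variable (hB : B.OK I) (H : ∀ t, PMx B m (φ t))
include hB H

theorem pg : K.mem fun t => m.pg (φ t) := by simpa only [pg_eq hB (H _)] using h.pgF
theorem p1 : K.mem fun t => m.p1 B (φ t) := idx h.P (h.pg hB H)
theorem p2 : K.mem fun t => m.p2 B (φ t) := idx h.sd (h.pg hB H)

end Dat
end Kl

/-- bounded with all derivatives -/
def cbK (F : Pre I M ι) : Kl M :=
  ⟨F.Cb, Sob92.Cb_const, Sob92.Cb_add, Sob92.Cb_app⟩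

theorem dat_sm (hB : B.OK I) (H : m.OK I B) : Kl.Dat (smAll I) B m id :=
  ⟨hB.sP, hB.so, H.sp, H.sρ, H.sj⟩

section sm
variable (hB : B.OK I) (H : m.OK I B)
include hB H
theorem sm_om : Sm I (m.om B) := (dat_sm hB H).om
theorem sm_pp : Sm I (m.pp B) := (dat_sm hB H).pp
theorem sm_pm : Sm I (m.pm B) := (dat_sm hB H).pm
theorem sm_pg : Sm I m.pg := (dat_sm hB H).pg hB (pmx H)
theorem sm_p1 : Sm I (m.p1 B) := (dat_sm hB H).p1 hB (pmx H)
theorem sm_p2 : Sm I (m.p2 B) := (dat_sm hB H).p2 hB (pmx H)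
end sm

/-- local version: `pg` is smooth at `x` if the module is defined near `x` -/
theorem smAt_pg (hB : B.OK I) (H : ∀ᶠ y in 𝓝 x, PMx B m y) (h : Kl.Dat (smAt I x) B m id) :
    ContMDiffAt I 𝓘(ℝ, CL m.A m.A) ∞ m.pg x :=
  ContMDiffAt.congr_of_eventuallyEq h.pgF (H.mono fun _ hy => pg_eq hB hy)

/-! ### the projectors on forms -/

section forms
variable (hB : B.OK I) (x : M)
include hB

theorem a2_symm (s t : ι × ι) : B.a2 x s t = B.a2 x t s := by
  have := (hB.pr x).symm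
  simp only [Base.a2, this t.1, this t.2]
  ring

theorem sd_symm (s t : ι × ι) : B.sd x s t = B.sd x t s := by
  rw [Base.sd, Base.sd, a2_symm hB, Eqv71.st_symm hB]

theorem st_st (s t : ι × ι) : ∑ r, B.st x s r * B.st x r t = B.a2 x s t := by
  obtain ⟨U, h⟩ := Wz78.exists_on (hB.pr x) (hB.rk x) (fun a b c d => hB.o12 a b c d x)
    (fun a b c d => hB.o23 a b c d x) (fun a b c d => hB.o34 a b c d x)
    (fun a b c d => hB.oP a b c d x) (hB.onm x)
  have e := h.toOn0.vol_sq s.1 s.2 t.1 t.2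
  simp only [← h.vol] at e
  simp only [Eqv71.st_symm hB x _ t]
  simp only [Base.st, Base.a2, Fintype.sum_prod_type, div_mul_div_comm, ← sum_div, e]
  ring

theorem a2_st (s t : ι × ι) : ∑ r, B.a2 x s r * B.st x r t = B.st x s t := by
  have e1 := Eqv71.P2_st hB x s t
  have e2 := Eqv71.P2_st hB x (s.2, s.1) t
  have e3 : B.st x (s.2, s.1) t = -B.st x s t := by
    simp only [Base.st]; rw [hB.o12]; ring
  have e4 : ∑ r : ι × ι, B.P s.1 r.2 x * B.P s.2 r.1 x * B.st x r t = -B.st x s t := by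
    rw [← e3, ← e2]
    exact sum_congr rfl fun r _ => by simp only [Eqv71.sq2]; ring
  simp only [Eqv71.sq2] at e1
  simp only [Base.a2, div_mul_eq_mul_div, ← sum_div, sub_mul, sum_sub_distrib, e1, e4]
  ring

theorem st_a2 (s t : ι × ι) : ∑ r, B.st x s r * B.a2 x r t = B.st x s t := by
  rw [Eqv71.st_symm hB x s t, ← a2_st hB x t s]
  exact sum_congr rfl fun r _ => by rw [Eqv71.st_symm hB x s r, a2_symm hB x r t, mul_comm]

theorem a2_a2 (s t : ι × ι) : ∑ r, B.a2 x s r * B.a2 x r t = B.a2 x s t := by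
  simp only [← st_st hB x _ t, mul_sum, ← mul_assoc]
  rw [sum_comm]
  simp only [← sum_mul, a2_st hB]

theorem sd_sd (s t : ι × ι) : ∑ r, B.sd x s r * B.sd x r t = B.sd x s t := by
  simp only [Base.sd, div_mul_div_comm, ← sum_div, add_mul, mul_add, sum_add_distrib, st_st hB,
    a2_st hB, st_a2 hB, a2_a2 hB]
  ring

theorem st_sd (s t : ι × ι) : ∑ r, B.st x s r * B.sd x r t = B.sd x s t := by
  simp only [Base.sd, ← mul_div_assoc, ← sum_div, mul_add, sum_add_distrib, st_st hB, st_a2 hB]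
  ring

theorem a2_sd (s t : ι × ι) : ∑ r, B.a2 x s r * B.sd x r t = B.sd x s t := by
  simp only [Base.sd, ← mul_div_assoc, ← sum_div, mul_add, sum_add_distrib, a2_st hB, a2_a2 hB]

omit hB in
theorem pg_pg (ξ : m.A) : m.pg x (m.pg x ξ) = m.pg x ξ :=
  Submodule.starProjection_eq_self_iff.2 ((m.gS x).starProjection_apply_mem ξ)

omit hB in
theorem pg_symm (ξ η : m.A) : ⟪m.pg x ξ, η⟫_ℝ = ⟪ξ, m.pg x η⟫_ℝ :=
  (m.gS x).inner_starProjection_left_eq_right ξ η

omit hB in
theorem pg_comp : m.pg x ∘L m.pg x = m.pg x := ContinuousLinearMap.ext (pg_pg x)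

theorem p1_p1 (α : Fm ι m.A) : m.p1 B x (m.p1 B x α) = m.p1 B x α := by
  simp only [Md.p1, idx_eq, ridx_ridx, pg_comp, (hB.pr x).idem]

theorem p2_p2 (α : Fm (ι × ι) m.A) : m.p2 B x (m.p2 B x α) = m.p2 B x α := by
  simp only [Md.p2, idx_eq, ridx_ridx, pg_comp, sd_sd hB]

theorem p1_symm (α β : Fm ι m.A) : ⟪m.p1 B x α, β⟫_ℝ = ⟪α, m.p1 B x β⟫_ℝ := by
  simp only [Md.p1, idx_eq, inner_ridx _ (pg_symm x), (hB.pr x).symm]

theorem p2_symm (α β : Fm (ι × ι) m.A) : ⟪m.p2 B x α, β⟫_ℝ = ⟪α, m.p2 B x β⟫_ℝ := by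
  rw [Md.p2, idx_eq, inner_ridx _ (pg_symm x)]
  have : (fun b a => B.sd x a b) = B.sd x := by funext a b; exact sd_symm hB x b a
  rw [this]

end forms

/-- all projector fields are `IsProj` as soon as the data are bounded -/
theorem isProj_all (F : Pre I M ι) (hB : B.OK I) (H : m.OK I B) (h : Kl.Dat (cbK F) B m id) :
    (∃ C, F.IsProj m.p C) ∧ (∃ C, F.IsProj (m.pp B) C) ∧ (∃ C, F.IsProj (m.pm B) C) ∧
    (∃ C, F.IsProj m.pg C) ∧ (∃ C, F.IsProj (m.p1 B) C) ∧ ∃ C, F.IsProj (m.p2 B) C := by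
  have ap : ∀ {S T : En (Fin m.N)}, S = T → ∀ v, S v = T v := fun e v => by rw [e]
  obtain ⟨C0, h0⟩ := h.p
  obtain ⟨C1, h1⟩ := h.pp
  obtain ⟨C2, h2⟩ := h.pm
  obtain ⟨C3, h3⟩ := h.pg hB (pmx H)
  obtain ⟨C4, h4⟩ := h.p1 hB (pmx H)
  obtain ⟨C5, h5⟩ := h.p2 hB (pmx H)
  exact ⟨⟨C0, h0, fun x => ap (H.pidem x), H.psym⟩,
    ⟨C1, h1, fun x => ap (pp_pp hB (pmx H x)), fun x => pp_sym hB (pmx H x)⟩,
    ⟨C2, h2, fun x => ap (pm_pm hB (pmx H x)), fun x => pm_sym hB (pmx H x)⟩,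
    ⟨C3, h3, pg_pg, pg_symm⟩, ⟨C4, h4, p1_p1 hB, p1_symm hB⟩, ⟨C5, h5, p2_p2 hB, p2_symm hB⟩⟩

/-- on a compact manifold the data are bounded -/
theorem dat_cb [CompactSpace M] (F : Pre I M ι) (hB : B.OK I) (H : m.OK I B) :
    Kl.Dat (cbK F) B m id :=
  ⟨fun a b => Sob92.Cb_of_compact (hB.sP a b), fun a b c d => Sob92.Cb_of_compact (hB.so a b c d),
    Sob92.Cb_of_compact H.sp, fun a => Sob92.Cb_of_compact (H.sρ a), Sob92.Cb_of_compact H.sj⟩

end Crest.Agent.X212.Std94
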