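import Crest.Agent.X212.Std94.Proj
import Crest.Agent.X212.Eqv71.Alg

/-! STD on `An/Gauge`, pointwise part: frames, `om`, `pp`, `pm`, the fibre of `g`. -/

set_option autoImplicit false
set_option linter.unusedSectionVars false
noncomputable section
namespace Crest.Agent.X212.Std94
open Quaternion Module Finset An
open Eqv71 (hsL_opL opL_hsL inner_hsL inner_trn inner_trn')
open scoped Manifold ContDiff Topology InnerProductSpace

variable {E : Type} [NormedAddCommGroup E] [NormedSpace ℝ E] [FiniteDimensional ℝ E]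
  [MeasurableSpace E] [BorelSpace E]
  {HM : Type} [TopologicalSpace HM] {I : ModelWithCorners ℝ E HM}
  {M : Type} [TopologicalSpace M] [ChartedSpace HM M] [IsManifold I ∞ M]
  [MeasurableSpace M] {ι : Type} [Fintype ι] {lam : Type} [Fintype lam]
  {B : Base M ι lam} {m m' : Md M ι lam} {x : M}

/-- the algebraic axioms of a module at one point -/
abbrev PMx (B : Base M ι lam) (m : Md M ι lam) (x : M) : Prop :=
  PM (fun a b => B.P a b x) (B.l x) B.il (m.p x) m.J (fun a => m.ρ a x) (m.j x)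

theorem pmx (H : m.OK I B) (x : M) : PMx B m x :=
  ⟨H.Jsq, H.Jsk, H.psym x, H.pidem x, H.prk x, H.Jp x, H.cl x, fun a => H.ρsk a x,
    fun a => H.Jρ a x, H.jsym x, H.jJ x, H.jil x, H.jl x, H.jsq x, H.pj x, fun a => H.jρ a x⟩

theorem plx (hB : B.OK I) (x : M) : PL (B.l x) B.il :=
  ⟨hB.lsym x, hB.lidem x, hB.lrk x, hB.ilsq, hB.ilsk, hB.ill x⟩

theorem altx (hB : B.OK I) (x : M) : Alt fun a b c d => B.o a b c d x :=
  ⟨fun a b c d => hB.o12 a b c d x, fun a b c d => hB.o23 a b c d x,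
    fun a b c d => hB.o34 a b c d x⟩

/-- frames of the background at a point -/
structure Bx (B : Base M ι lam) (x : M) (U : Fin 4 → ι → ℝ) (s₀ : Eu lam) : Prop where
  of : OF (fun a b => B.P a b x) (fun a b c d => B.o a b c d x) U
  lf : LF (B.l x) B.il s₀

theorem exists_bx (hB : B.OK I) (x : M) : ∃ U s₀, Bx B x U s₀ := by
  obtain ⟨U, hU⟩ := exists_OF (hB.pr x).symm (hB.pr x).idem (hB.rk x) (altx hB x)
    (fun a b c d => hB.oP a b c d x) (hB.onm x)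
  obtain ⟨s, hs⟩ := (plx hB x).exists_lf
  exact ⟨U, s, hU, hs⟩

/-- frames of the background and of the module at a point -/
structure Fx (B : Base M ι lam) (m : Md M ι lam) (x : M) (U : Fin 4 → ι → ℝ) (s₀ : Eu lam)
    (u : S4 →ₗᵢ[ℝ] m.V) : Prop extends Bx B x U s₀ where
  pm : PMx B m x
  nf : Frm U s₀ (m.p x) m.J (fun a => m.ρ a x) (m.j x) u

variable {U : Fin 4 → ι → ℝ} {s₀ : Eu lam} {u : S4 →ₗᵢ[ℝ] m.V} {u' : S4 →ₗᵢ[ℝ] m'.V}

theorem Bx.exists_fx (h : Bx B x U s₀) (H : PMx B m x) : ∃ u, Fx B m x U s₀ u :=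
  let ⟨u, hu⟩ := H.exists_frm h.of.toON h.lf
  ⟨u, h, H, hu⟩

/-- **STD**: frames exist at every point -/
theorem exists_fx (hB : B.OK I) (H : PMx B m x) : ∃ U s₀ u, Fx B m x U s₀ u :=
  let ⟨U, s, h⟩ := exists_bx hB x
  let ⟨u, hu⟩ := h.exists_fx H
  ⟨U, s, u, hu⟩

/-- intertwiners at a point -/
abbrev Itx (m m' : Md M ι lam) (x : M) (A : CL m.V m'.V) : Prop :=
  Itw (m.p x) m.J (fun a => m.ρ a x) (m.j x) (m'.p x) m'.J (fun a => m'.ρ a x) (m'.j x) A

theorem inner_hs {κ : Type} [Fintype κ] [DecidableEq κ] (S T : En κ) :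
    ⟪hsL S, hsL T⟫_ℝ = hs S T := by
  rw [inner_hsL, hs_eq_sum (EuclideanSpace.basisFun κ ℝ)]
  simp

theorem inner_hs' {κ : Type} [Fintype κ] [DecidableEq κ] (ξ η : HS κ) :
    ⟪ξ, η⟫_ℝ = hs (opL ξ) (opL η) := by rw [← inner_hs, hsL_opL, hsL_opL]

theorem trn_Xi {κ κ' : Type} [Fintype κ] [Fintype κ'] (u' : S4 →ₗᵢ[ℝ] Eu κ') (u : S4 →ₗᵢ[ℝ] Eu κ)
    (c : ℍ) : trn (Xi u' u c) = Xi u u' (star c) :=
  ContinuousLinearMap.ext fun z => ext_inner_left ℝ fun y => by rw [inner_trn', inner_Xi]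

namespace Fx
variable (h : Fx B m x U s₀ u)
include h

theorem q4 : Q4 (m.p x) m.J (m.j x s₀) (fr U fun a => m.ρ a x) := h.pm.q4 h.of.toON h.lf
theorem p_u (y : S4) : m.p x (u y) = u y := h.nf.pu y
theorem J_u (y : S4) : m.J (u y) = u (J0 y) := h.nf.Ju y
theorem rho_u (a : ι) (y : S4) : m.ρ a x (u y) = u (r0 (tq U a) y) :=
  Frm.rho_u h.pm h.of.toON h.nf a y
theorem j_u (s : Eu lam) (y : S4) :
    m.j x s (u y) = u (⟪s₀, s⟫_ℝ • k0 y + ⟪B.il s₀, s⟫_ℝ • J0 (k0 y)) := Frm.j_u h.pm h.lf h.nf s y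
theorem u_ui (v : m.V) : u (ui u v) = m.p x v := h.nf.u_ui h.q4 v
theorem Xi_one : Xi u u 1 = m.p x := h.nf.Xi_one h.q4
theorem Xi_coe (t : ℝ) : Xi u u (t : ℍ) = t • m.p x := h.nf.Xi_coe h.q4 t

theorem om_apply (v : m.V) : m.om B x v = om4 (fr U fun a => m.ρ a x) v :=
  congrArg (fun T : En (Fin m.N) => T v) (h.pm.om_eq h.of)

theorem om_u (y : S4) : m.om B x (u y) = u (mk4 (-y 0) (y 1) (-y 2) (y 3)) := by
  rw [h.om_apply, om4, h.nf.ru, h.nf.ru, h.nf.ru, h.nf.ru, om0]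

theorem pp_u (y : S4) : m.pp B x (u y) = u (mk4 (y 0) 0 (y 2) 0) := by
  rw [Md.pp, smul_apply, sub_apply, h.p_u, h.om_u, ← map_sub, ← map_smul]
  congr 1
  refine ext4 ?_ ?_ ?_ ?_ <;> (ext <;> simp <;> ring)

theorem pm_u (y : S4) : m.pm B x (u y) = u (mk4 0 (y 1) 0 (y 3)) := by
  rw [Md.pm, smul_apply, add_apply, h.p_u, h.om_u, ← map_add, ← map_smul]
  congr 1
  refine ext4 ?_ ?_ ?_ ?_ <;> (ext <;> simp <;> ring)

theorem itx_iff (h' : Fx B m' x U s₀ u') (A : CL m.V m'.V) :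
    Itx m m' x A ↔ ∃ c, A = Xi u' u c :=
  itw_iff_Xi h.pm h'.pm h.of.toON h.lf h.nf h'.nf A

theorem itx_of_mem {ξ : m.A} (hξ : ξ ∈ m.gS x) : Itx m m x (opL ξ) := by
  have ap : ∀ {S T : En (Fin m.N)}, S = T → ∀ v, S v = T v := fun e v => by rw [e]
  refine ⟨ap hξ.2.1, fun y => ext_inner_left ℝ fun z => ?_, fun a => (ap (hξ.2.2.2.1 a) · |>.symm),
    (ap hξ.2.2.1 · |>.symm), fun s => (ap (hξ.2.2.2.2 s) · |>.symm)⟩
  have e := ap hξ.2.1 z
  rw [mul_apply_eq_comp] at e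
  have a1 := hξ.1 z (m.p x y)
  have a2 := hξ.1 z y
  rw [← h.pm.psym, e, a2] at a1
  exact (neg_inj.1 a1).symm

omit h in
theorem mem_of_itx {T : En (Fin m.N)} (i : Itx m m x T) (hs : Skw T) : hsL T ∈ m.gS x := by
  refine ⟨?_, ?_, ?_, fun a => ?_, fun s => ?_⟩ <;> rw [opL_hsL]
  · exact hs
  · exact ContinuousLinearMap.ext i.pl
  · exact ContinuousLinearMap.ext fun y => (i.J y).symm
  · exact ContinuousLinearMap.ext fun y => (i.ρ a y).symm
  · exact ContinuousLinearMap.ext fun y => (i.j s y).symm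

theorem Xi_mem {c : ℍ} (hc : c.re = 0) : hsL (Xi u u c) ∈ m.gS x :=
  mem_of_itx ((h.itx_iff h _).2 ⟨c, rfl⟩) ((skew_Xi_iff u c).2 hc)

/-- `g = Im ℍ` -/
theorem mem_g_iff (ξ : m.A) : ξ ∈ m.gS x ↔ ∃ c : ℍ, c.re = 0 ∧ ξ = hsL (Xi u u c) := by
  refine ⟨fun hξ => ?_, by rintro ⟨c, hc, rfl⟩; exact h.Xi_mem hc⟩
  obtain ⟨c, hc⟩ := (h.itx_iff h _).1 (h.itx_of_mem hξ)
  exact ⟨c, (skew_Xi_iff u c).1 (hc ▸ hξ.1), by rw [← hc, hsL_opL]⟩

omit h in
theorem inner_g (c d : ℍ) : ⟪hsL (Xi u u c), hsL (Xi u u d)⟫_ℝ = 16 * ⟪c, d⟫_ℝ := by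
  rw [inner_hs, hs_Xi]

theorem pg_eq_of {ξ : m.A} {c : ℍ} (hc : c.re = 0)
    (e : ∀ d : ℍ, d.re = 0 → ⟪ξ, hsL (Xi u u d)⟫_ℝ = 16 * ⟪c, d⟫_ℝ) :
    m.pg x ξ = hsL (Xi u u c) := by
  refine Submodule.eq_starProjection_of_mem_of_inner_eq_zero (h.Xi_mem hc) fun η hη => ?_
  obtain ⟨d, hd, rfl⟩ := (h.mem_g_iff η).1 hη
  rw [inner_sub_left, e d hd, inner_g, sub_self]

theorem pg_Xi (c : ℍ) : m.pg x (hsL (Xi u u c)) = hsL (Xi u u c.im) :=
  h.pg_eq_of (by simp) fun d hd => by rw [inner_g]; simp [inner_q, hd]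

/-- the `g`-part of `u a ⊗ (u b)*` -/
theorem q_u (a b : S4) :
    m.q x (u a) (u b) = hsL (Xi u u ((1 / 16 : ℝ) • (∑ i, star (a i) * b i).im)) := by
  refine h.pg_eq_of (by simp) fun d hd => ?_
  have e : ⟪hsL (rk1 (u a) (u b)), hsL (Xi u u d)⟫_ℝ = ⟪u a, Xi u u d (u b)⟫_ℝ := by
    rw [inner_hs, hs_eq_sum (stdOrthonormalBasis ℝ m.V)]
    conv_rhs => rw [← (stdOrthonormalBasis ℝ m.V).sum_repr' (u b)]
    simp [rk1, inner_sum, inner_smul_left, inner_smul_right, real_inner_comm]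
  rw [e, Xi_u, u.inner_map_map, inner4]
  simp [Rm_coe, inner_q, Fin.sum_univ_four, hd]
  ring

end Fx

section free
variable (hB : B.OK I) (H : PMx B m x)
include hB H

theorem om_om : m.om B x * m.om B x = m.p x := by
  obtain ⟨U, s, u, h⟩ := exists_fx hB H
  exact ContinuousLinearMap.ext fun v => by
    rw [mul_apply_eq_comp, h.om_apply, h.om_apply, h.q4.om_om]

theorem om_sym : Sym (m.om B x) := fun v w => by
  obtain ⟨U, s, u, h⟩ := exists_fx hB H
  rw [h.om_apply, h.om_apply, h.q4.om_s]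

theorem p_om : m.p x * m.om B x = m.om B x := by
  obtain ⟨U, s, u, h⟩ := exists_fx hB H
  exact ContinuousLinearMap.ext fun v => by rw [mul_apply_eq_comp, h.om_apply, om4, h.q4.pr]

theorem om_p : m.om B x * m.p x = m.om B x := by
  obtain ⟨U, s, u, h⟩ := exists_fx hB H
  exact ContinuousLinearMap.ext fun v => by
    rw [mul_apply_eq_comp, h.om_apply, h.om_apply, om4, om4, h.q4.rp]

theorem om_rho (a : ι) : m.om B x * m.ρ a x = -(m.ρ a x * m.om B x) := by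
  obtain ⟨U, s, u, h⟩ := exists_fx hB H
  refine ContinuousLinearMap.ext fun v => ?_
  have e : m.ρ a x = _ := h.of.toON.rho_eq H.cl a
  rw [e]
  simp only [mul_apply_eq_comp, neg_apply, _root_.sum_apply, smul_apply, map_sum, map_smul]
  simp only [h.om_apply, h.q4.om_r, smul_neg, sum_neg_distrib]

omit hB H in
theorem om_comm {T : En (Fin m.N)} (hT : ∀ a, T * m.ρ a x = m.ρ a x * T) :
    T * m.om B x = m.om B x * T := by
  have c : ∀ a, Commute T (m.ρ a x) := hT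
  refine Commute.smul_right (Commute.sum_right _ _ _ fun a _ => Commute.sum_right _ _ _ fun b _ =>
    Commute.sum_right _ _ _ fun d _ => Commute.sum_right _ _ _ fun e _ => ?_) _
  exact ((((c a).mul_right (c b)).mul_right (c d)).mul_right (c e)).smul_right _

omit hB H in
theorem pp_comm {T : En (Fin m.N)} (hp : T * m.p x = m.p x * T)
    (hT : ∀ a, T * m.ρ a x = m.ρ a x * T) : T * m.pp B x = m.pp B x * T := by
  simp only [Md.pp, mul_smul_comm, smul_mul_assoc, mul_sub, sub_mul, hp, om_comm hT]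

omit hB H in
theorem pm_comm {T : En (Fin m.N)} (hp : T * m.p x = m.p x * T)
    (hT : ∀ a, T * m.ρ a x = m.ρ a x * T) : T * m.pm B x = m.pm B x * T := by
  simp only [Md.pm, mul_smul_comm, smul_mul_assoc, mul_add, add_mul, hp, om_comm hT]

omit hB in
theorem J_pp : m.J * m.pp B x = m.pp B x * m.J := pp_comm H.Jp H.Jρ
omit hB in
theorem J_pm : m.J * m.pm B x = m.pm B x * m.J := pm_comm H.Jp H.Jρ

omit hB in
theorem j_p (s : Eu lam) : m.j x s * m.p x = m.j x s :=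
  ContinuousLinearMap.ext fun v => ext_inner_left ℝ fun w => by
    have e : m.p x (m.j x s w) = m.j x s w := congrArg (fun T : En (Fin m.N) => T w) (H.pj s)
    rw [mul_apply_eq_comp, ← H.jsym, ← H.psym, e, H.jsym]

omit hB in
theorem j_pp (s : Eu lam) : m.j x s * m.pp B x = m.pp B x * m.j x s :=
  pp_comm (by rw [j_p H, H.pj]) fun a => H.jρ a s
omit hB in
theorem j_pm (s : Eu lam) : m.j x s * m.pm B x = m.pm B x * m.j x s :=
  pm_comm (by rw [j_p H, H.pj]) fun a => H.jρ a s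

omit hB H in
theorem pp_add_pm : m.pp B x + m.pm B x = m.p x := by simp only [Md.pp, Md.pm]; module

theorem pp_pp : m.pp B x * m.pp B x = m.pp B x := by
  simp only [Md.pp, mul_smul_comm, smul_mul_assoc, mul_sub, sub_mul, H.pidem, om_om hB H,
    p_om hB H, om_p hB H]
  module

theorem pm_pm : m.pm B x * m.pm B x = m.pm B x := by
  simp only [Md.pm, mul_smul_comm, smul_mul_assoc, mul_add, add_mul, H.pidem, om_om hB H,
    p_om hB H, om_p hB H]
  module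

theorem pp_pm : m.pp B x * m.pm B x = 0 := by
  simp only [Md.pp, Md.pm, mul_smul_comm, smul_mul_assoc, mul_add, sub_mul, H.pidem, om_om hB H,
    p_om hB H, om_p hB H]
  module

theorem pm_pp : m.pm B x * m.pp B x = 0 := by
  simp only [Md.pp, Md.pm, mul_smul_comm, smul_mul_assoc, mul_sub, add_mul, H.pidem, om_om hB H,
    p_om hB H, om_p hB H]
  module

theorem p_pp : m.p x * m.pp B x = m.pp B x := by
  simp only [Md.pp, mul_smul_comm, mul_sub, H.pidem, p_om hB H]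
theorem pp_p : m.pp B x * m.p x = m.pp B x := by
  simp only [Md.pp, smul_mul_assoc, sub_mul, H.pidem, om_p hB H]
theorem p_pm : m.p x * m.pm B x = m.pm B x := by
  simp only [Md.pm, mul_smul_comm, mul_add, H.pidem, p_om hB H]
theorem pm_p : m.pm B x * m.p x = m.pm B x := by
  simp only [Md.pm, smul_mul_assoc, add_mul, H.pidem, om_p hB H]

theorem om_pp : m.om B x * m.pp B x = -m.pp B x := by
  simp only [Md.pp, mul_smul_comm, mul_sub, om_om hB H, om_p hB H]; module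
theorem om_pm : m.om B x * m.pm B x = m.pm B x := by
  simp only [Md.pm, mul_smul_comm, mul_add, om_om hB H, om_p hB H]; module

theorem pp_sym : Sym (m.pp B x) := fun v w => by
  simp only [Md.pp, smul_apply, sub_apply, real_inner_smul_left, real_inner_smul_right,
    inner_sub_left, inner_sub_right, H.psym, om_sym hB H v w]
theorem pm_sym : Sym (m.pm B x) := fun v w => by
  simp only [Md.pm, smul_apply, add_apply, real_inner_smul_left, real_inner_smul_right,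
    inner_add_left, inner_add_right, H.psym, om_sym hB H v w]

theorem rho_pp (a : ι) : m.ρ a x * m.pp B x = m.pm B x * m.ρ a x := by
  have e1 : m.ρ a x * m.p x = m.ρ a x := H.cl.pr a
  have e2 : m.p x * m.ρ a x = m.ρ a x := H.cl.pl a
  simp only [Md.pp, Md.pm, mul_smul_comm, smul_mul_assoc, mul_sub, add_mul, om_rho hB H, e1, e2]
  rw [sub_eq_add_neg]
theorem rho_pm (a : ι) : m.ρ a x * m.pm B x = m.pp B x * m.ρ a x := by
  have e1 : m.ρ a x * m.p x = m.ρ a x := H.cl.pr a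
  have e2 : m.p x * m.ρ a x = m.ρ a x := H.cl.pl a
  simp only [Md.pp, Md.pm, mul_smul_comm, smul_mul_assoc, mul_add, sub_mul, om_rho hB H, e1, e2,
    sub_neg_eq_add]

variable {ξ η : m.A}

theorem g_p (hξ : ξ ∈ m.gS x) : opL ξ * m.p x = opL ξ := by
  obtain ⟨U, s, u, h⟩ := exists_fx hB H
  exact ContinuousLinearMap.ext (h.itx_of_mem hξ).pr

theorem g_pp (hξ : ξ ∈ m.gS x) : opL ξ * m.pp B x = m.pp B x * opL ξ :=
  pp_comm (by rw [g_p hB H hξ, hξ.2.1]) fun a => (hξ.2.2.2.1 a).symm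
theorem g_pm (hξ : ξ ∈ m.gS x) : opL ξ * m.pm B x = m.pm B x * opL ξ :=
  pm_comm (by rw [g_p hB H hξ, hξ.2.1]) fun a => (hξ.2.2.2.1 a).symm

/-- quaternion relations -/
theorem g_anti (hξ : ξ ∈ m.gS x) (hη : η ∈ m.gS x) :
    opL ξ * opL η + opL η * opL ξ = (-⟪ξ, η⟫_ℝ / 8) • m.p x := by
  obtain ⟨U, s, u, h⟩ := exists_fx hB H
  obtain ⟨c, hc, rfl⟩ := (h.mem_g_iff ξ).1 hξ
  obtain ⟨d, hd, rfl⟩ := (h.mem_g_iff η).1 hη
  rw [opL_hsL, opL_hsL, Xi_mul, Xi_mul, ← map_add, Fx.inner_g, ← h.Xi_coe]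
  congr 1
  ext <;> simp only [re_coe, imI_coe, imJ_coe, imK_coe] <;> simp [inner_q, hc, hd] <;> ring

theorem g_sq (hξ : ξ ∈ m.gS x) : opL ξ * opL ξ = (-‖ξ‖ ^ 2 / 16) • m.p x := by
  have e := g_anti hB H hξ hξ
  rw [real_inner_self_eq_norm_sq, ← two_smul ℝ] at e
  refine smul_right_injective _ (two_ne_zero (α := ℝ)) (e.trans ?_)
  simp only [smul_smul]
  congr 1
  ring

theorem norm_g_apply (hξ : ξ ∈ m.gS x) (v : m.V) : ‖opL ξ v‖ = ‖ξ‖ / 4 * ‖m.p x v‖ := by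
  have e := congrArg (fun T : En (Fin m.N) => ⟪v, T v⟫_ℝ) (g_sq hB H hξ)
  have pp : m.p x (m.p x v) = m.p x v := congrArg (fun T : En (Fin m.N) => T v) H.pidem
  have a := hξ.1 v (opL ξ v)
  have b := H.psym v (m.p x v)
  simp only [mul_apply_eq_comp, smul_apply, real_inner_smul_right] at e
  rw [pp, real_inner_self_eq_norm_sq] at b
  rw [e, real_inner_self_eq_norm_sq, ← b] at a
  refine (pow_left_inj₀ (norm_nonneg _) (by positivity) two_ne_zero).1 ?_
  rw [a]; ring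

/-- the double bracket -/
theorem adc_adc (hξ : ξ ∈ m.gS x) (hη : η ∈ m.gS x) :
    adc (opL ξ) (adc (opL ξ) η) = (1 / 4 : ℝ) • (⟪ξ, η⟫_ℝ • ξ - ‖ξ‖ ^ 2 • η) := by
  obtain ⟨U, s, u, h⟩ := exists_fx hB H
  obtain ⟨c, hc, rfl⟩ := (h.mem_g_iff ξ).1 hξ
  obtain ⟨d, hd, rfl⟩ := (h.mem_g_iff η).1 hη
  have e : ∀ c d, adc (Xi u u c) (hsL (Xi u u d)) = hsL (Xi u u (c * d - d * c)) := fun c d => by
    change hsL (_ * opL _ - opL _ * _) = _
    rw [opL_hsL, Xi_mul, Xi_mul, map_sub (Xi u u)]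
  have q : c * (c * d - d * c) - (c * d - d * c) * c =
      (1 / 4 : ℝ) • ((16 * ⟪c, d⟫_ℝ) • c - (16 * ⟪c, c⟫_ℝ) • d) := by
    simp only [inner_q]
    ext <;> simp [hc, hd] <;> ring
  rw [← real_inner_self_eq_norm_sq, opL_hsL, e, e, Fx.inner_g, Fx.inner_g, q]
  simp only [map_smul, map_sub]

/-- commuting elements of `g` are proportional -/
theorem g_comm (hξ : ξ ∈ m.gS x) (hη : η ∈ m.gS x) (h0 : opL ξ * opL η = opL η * opL ξ) :
    ‖ξ‖ ^ 2 • η = ⟪ξ, η⟫_ℝ • ξ := by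
  have e := adc_adc hB H hξ hη
  have z : adc (opL ξ) η = 0 := by
    change hsL (_ * opL _ - opL _ * _) = _
    rw [h0, sub_self, map_zero]
  rw [z, map_zero, eq_comm, smul_eq_zero, sub_eq_zero] at e
  exact (e.resolve_left (by norm_num)).symm

theorem finrank_g : finrank ℝ (m.gS x) = 3 := by
  obtain ⟨U, s, u, h⟩ := exists_fx hB H
  let f : (Fin 3 → ℝ) →ₗ[ℝ] ℍ :=
    { toFun := fun t => ⟨0, t 0, t 1, t 2⟩
      map_add' := fun a b => by ext <;> simp
      map_smul' := fun a b => by ext <;> simp }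
  let g : (Fin 3 → ℝ) →ₗ[ℝ] m.A := (hsL : CL (En (Fin m.N)) m.A).toLinearMap ∘ₗ Xi u u ∘ₗ f
  have e : g.range = m.gS x := by
    ext ξ
    rw [h.mem_g_iff]
    refine ⟨by rintro ⟨t, rfl⟩; exact ⟨f t, rfl, rfl⟩, ?_⟩
    rintro ⟨c, hc, rfl⟩
    refine ⟨![c.imI, c.imJ, c.imK], congrArg (fun d => hsL (Xi u u d)) ?_⟩
    ext <;> simp [f, hc]
  have i : Function.Injective g := by
    refine (injective_iff_map_eq_zero _).2 fun t ht => ?_
    have h1 := congrArg opL ht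
    change opL (hsL (Xi u u (f t))) = _ at h1
    rw [opL_hsL, map_zero, map_eq_zero_iff _ (Xi_inj u u)] at h1
    funext i
    fin_cases i
    exacts [congrArg QuaternionAlgebra.imI h1, congrArg QuaternionAlgebra.imJ h1,
      congrArg QuaternionAlgebra.imK h1]
  rw [← e, LinearMap.finrank_range_of_inj i]
  simp

/-- the commutant is `ℝ p ⊕ g` -/
theorem itx_iff (A : En (Fin m.N)) :
    Itx m m x A ↔ ∃ t : ℝ, ∃ ξ ∈ m.gS x, A = t • m.p x + opL ξ := by
  obtain ⟨U, s, u, h⟩ := exists_fx hB H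
  rw [h.itx_iff h]
  constructor
  · rintro ⟨c, rfl⟩
    exact ⟨c.re, _, h.Xi_mem (c := c.im) (by simp), by
      rw [opL_hsL, ← h.Xi_coe, ← map_add, re_add_im]⟩
  · rintro ⟨t, ξ, hξ, rfl⟩
    obtain ⟨c, -, rfl⟩ := (h.mem_g_iff ξ).1 hξ
    exact ⟨t + c, by rw [opL_hsL, ← h.Xi_coe, ← map_add]⟩

omit hB in
theorem trn_comm (t : ℝ) (hξ : ξ ∈ m.gS x) : trn (t • m.p x + opL ξ) = t • m.p x - opL ξ := by
  refine ContinuousLinearMap.ext fun z => ext_inner_left ℝ fun y => ?_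
  rw [inner_trn']
  simp only [add_apply, smul_apply, inner_add_left,
    real_inner_smul_left, real_inner_smul_right, H.psym, hξ.1 y z, sub_eq_add_neg,
    inner_add_right, neg_apply, inner_neg_right]

/-- norms in the commutant -/
theorem comm_norm (t : ℝ) (hξ : ξ ∈ m.gS x) :
    (t • m.p x - opL ξ) * (t • m.p x + opL ξ) = (t ^ 2 + ‖ξ‖ ^ 2 / 16) • m.p x ∧
    (t • m.p x + opL ξ) * (t • m.p x - opL ξ) = (t ^ 2 + ‖ξ‖ ^ 2 / 16) • m.p x := by
  constructor <;>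
  · simp only [mul_add, mul_sub, add_mul, sub_mul, mul_smul_comm, smul_mul_assoc, H.pidem,
      g_sq hB H hξ, g_p hB H hξ, hξ.2.1]
    module

/-- intertwiners are multiples of isometries -/
theorem itx_norm (H' : PMx B m' x) {A : CL m.V m'.V} (i : Itx m m' x A) :
    trn A ∘L A = (hs A A / 16) • m.p x ∧ A ∘L trn A = (hs A A / 16) • m'.p x := by
  obtain ⟨U, s, u, h⟩ := exists_fx hB H
  obtain ⟨u', h'⟩ := h.toBx.exists_fx H'
  obtain ⟨c, rfl⟩ := (h.itx_iff h' A).1 i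
  rw [trn_Xi, Xi_comp, Xi_comp, hs_Xi, ← h.Xi_coe, ← h'.Xi_coe, star_mul_self, self_mul_star,
    Quaternion.inner_self]
  constructor <;> congr 2 <;> ring

/-- any two modules are isomorphic at a point -/
theorem exists_itx (H' : PMx B m' x) : ∃ A : CL m.V m'.V, Itx m m' x A ∧
    trn A ∘L A = m.p x ∧ A ∘L trn A = m'.p x := by
  obtain ⟨U, s, u, h⟩ := exists_fx hB H
  obtain ⟨u', h'⟩ := h.toBx.exists_fx H'
  refine ⟨Xi u' u 1, (h.itx_iff h' _).2 ⟨1, rfl⟩, ?_, ?_⟩ <;>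
    rw [trn_Xi, Xi_comp, star_one, mul_one]
  exacts [h.Xi_one, h'.Xi_one]

end free

end Crest.Agent.X212.Std94
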