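import Crest.Agent.X212.Std94.Loc0
import Crest.Agent.X212.Std94.Gau
import Crest.Agent.X212.Pj41.Md

/-! STD on `An/Gauge`, local part: any two modules are locally isomorphic; smooth local frames of
the background and of a module. -/

set_option autoImplicit false
set_option linter.unusedSectionVars false
noncomputable section
namespace Crest.Agent.X212.Std94
open Quaternion Module Finset An Filter Pj41
open scoped Manifold ContDiff Topology InnerProductSpace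

variable {E : Type} [NormedAddCommGroup E] [NormedSpace ℝ E] [FiniteDimensional ℝ E]
  [MeasurableSpace E] [BorelSpace E]
  {HM : Type} [TopologicalSpace HM] {I : ModelWithCorners ℝ E HM}
  {M : Type} [TopologicalSpace M] [ChartedSpace HM M] [IsManifold I ∞ M]
  [MeasurableSpace M] {ι : Type} [Fintype ι] {lam : Type} [Fintype lam]
  {B : Base M ι lam} {m m' : Md M ι lam} {O : Set M} {x x₀ : M}

theorem Kl.rk2 {X L N : Type} [NormedAddCommGroup L] [InnerProductSpace ℝ L]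
    [NormedAddCommGroup N] [NormedSpace ℝ N] {K : Kl X} (il : L →L[ℝ] L) {s : X → L}
    (hs : K.mem s) (a b : N) :
    K.mem fun x => (innerSL ℝ (s x)).smulRight a + (innerSL ℝ (il (s x))).smulRight b :=
  K.add (Kl.bil (ContinuousLinearMap.smulRightL ℝ L N)
      (Kl.clm (innerSL ℝ : L →L[ℝ] L →L[ℝ] ℝ) hs) (K.const a))
    (Kl.bil (ContinuousLinearMap.smulRightL ℝ L N)
      (Kl.clm (innerSL ℝ : L →L[ℝ] L →L[ℝ] ℝ) (Kl.clm il hs)) (K.const b))

theorem Kl.j0 {X L : Type} [NormedAddCommGroup L] [InnerProductSpace ℝ L] {K : Kl X}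
    (il : L →L[ℝ] L) {s : X → L} (hs : K.mem s) :
    K.mem (N := CL L (CL S4 S4)) fun x => j0 il (s x) :=
  Kl.rk2 (N := CL S4 S4) il hs k0 (J0 * k0)

theorem pmx_on (H : OKOn I B m O) (hx : x ∈ O) : PMx B m x :=
  ⟨H.Jsq, H.Jsk, H.psym x hx, H.pidem x hx, H.prk x hx, H.Jp x hx, H.cl x hx,
    fun a => H.ρsk a x hx, fun a => H.Jρ a x hx, H.jsym x hx, H.jJ x hx, H.jil x hx, H.jl x hx,
    H.jsq x hx, H.pj x hx, fun a => H.jρ a x hx⟩

theorem hs_of_iso (H : PMx B m x) {A : CL m.V m'.V} (h : trn A ∘L A = m.p x) : hs A A = 16 := by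
  rw [← H.prk, ← h, hs]
  rfl

/-- **an isomorphism at one point extends to a neighbourhood** -/
theorem exists_iso0_ext (hB : B.OK I) (hO : IsOpen O) (H : OKOn I B m O) (H' : OKOn I B m' O)
    (hx : x₀ ∈ O) {A : CL m.V m'.V} (i : Itx m m' x₀ A) (n : trn A ∘L A = m.p x₀) :
    ∃ O' u, IsOpen O' ∧ x₀ ∈ O' ∧ O' ⊆ O ∧ u x₀ = A ∧ Iso0 I m m' O' u := by
  obtain ⟨u, u0, hu⟩ := exists_local_itw (I := I) (P := fun x a b => B.P a b x) (l := B.l)
    (il := B.il) (p := m.p) (ρ := fun x a => m.ρ a x) (p' := m'.p) (ρ' := fun x a => m'.ρ a x)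
    ((hO.eventually_mem hx).mono fun x hx => ⟨exists_ON (hB.pr x) (hB.rk x), plx hB x,
      pmx_on H hx, pmx_on H' hx, fun a => H.sρ a x hx, H.sj x hx, fun a => H'.sρ a x hx,
      H'.sj x hx⟩) i (hs_of_iso (pmx_on H hx) n)
  obtain ⟨O', h1, h2, h3⟩ := mem_nhds_iff.1 (hu.and (hO.eventually_mem hx))
  refine ⟨O', u, h2, h3, fun y hy => (h1 hy).2, u0, fun y hy => (h1 hy).1.1, fun y hy => ?_,
    fun y hy => ContinuousLinearMap.ext fun v => ((h1 hy).1.2.1.J v).symm,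
    fun y hy b => ContinuousLinearMap.ext fun v => ((h1 hy).1.2.1.ρ b v).symm,
    fun y hy s => ContinuousLinearMap.ext fun v => ((h1 hy).1.2.1.j s v).symm⟩
  obtain ⟨⟨-, a, b⟩, c⟩ := h1 hy
  have := itx_norm hB (pmx_on H c) (pmx_on H' c) a
  rw [b, div_self (by norm_num), one_smul, one_smul, ← ad_trn] at this
  exact ⟨this.1, this.2, ContinuousLinearMap.ext a.pr⟩

/-- **any two modules are locally isomorphic** -/
theorem exists_iso0 (hB : B.OK I) (hO : IsOpen O) (H : OKOn I B m O) (H' : OKOn I B m' O)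
    (hx : x₀ ∈ O) : ∃ O' u, IsOpen O' ∧ x₀ ∈ O' ∧ O' ⊆ O ∧ Iso0 I m m' O' u := by
  obtain ⟨A, i, n, -⟩ := exists_itx hB (pmx_on H hx) (pmx_on H' hx)
  obtain ⟨O', u, a, b, c, -, d⟩ := exists_iso0_ext hB hO H H' hx i n
  exact ⟨O', u, a, b, c, d⟩

theorem exists_mEq (hB : B.OK I) (H : m.OK I B) (H' : m'.OK I B) (x₀ : M) :
    ∃ O u, IsOpen O ∧ x₀ ∈ O ∧ MEq I m m' O id (fun x b a => B.P b a x) B.l u := by
  obtain ⟨O, u, a, b, -, d⟩ :=
    exists_iso0 hB isOpen_univ (OK.on H _) (OK.on H' _) (Set.mem_univ x₀)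
  exact ⟨O, u, a, b, d.mEq (OK.on H _) (OK.on H' _)⟩

/-- two isomorphisms differ by a unit of `ℝ p ⊕ g` -/
theorem iso0_aut (hB : B.OK I) (H : PMx B m x) {u : M → CL m.V m.V} (h : Iso0 I m m O u)
    (hx : x ∈ O) : ∃ t : ℝ, ∃ ξ ∈ m.gS x, u x = t • m.p x + opL ξ ∧ t ^ 2 + ‖ξ‖ ^ 2 / 16 = 1 := by
  have ap : ∀ {S T : En (Fin m.N)}, S = T → ∀ v, S v = T v := fun e v => by rw [e]
  obtain ⟨t, ξ, hξ, e⟩ := (itx_iff hB H (u x)).1 ⟨ap (h.iso x hx).left, ap (h.iso x hx).idem,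
    fun a y => (ap (h.ρ x hx a) y).symm, fun y => (ap (h.J x hx) y).symm,
    fun s y => (ap (h.j x hx s) y).symm⟩
  refine ⟨t, ξ, hξ, e, ?_⟩
  have e1 := (h.iso x hx).src
  rw [ad_trn, e, trn_comm H t hξ] at e1
  have e2 := (comm_norm hB H t hξ).1.symm.trans e1
  have e3 := congrArg (fun T : En (Fin m.N) => LinearMap.trace ℝ _ (T : m.V →ₗ[ℝ] m.V)) e2
  simp only [ContinuousLinearMap.toLinearMap_smul, map_smul, H.prk, smul_eq_mul] at e3
  linarith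

/-- **smooth local frames of the background**, with prescribed value at `x₀` -/
theorem exists_bx_near (hB : B.OK I) {U₀ : Fin 4 → ι → ℝ} {t₀ : Eu lam} (h₀ : Bx B x₀ U₀ t₀) :
    ∃ (U : M → Fin 4 → ι → ℝ) (s : M → Eu lam), U x₀ = U₀ ∧ s x₀ = t₀ ∧ ∀ᶠ x in 𝓝 x₀,
      (∀ i a, FSm I (fun y => U y i a) x) ∧ FSm I s x ∧ Bx B x (U x) (s x) := by
  classical
  obtain ⟨O, a, o1, o2, -, a0, ha⟩ := exists_iso_near (I := I) (𝕜 := ℝ)
    (p := fun _ => (1 : Matrix (Fin 4) (Fin 4) ℝ)) (q := fun y => Matrix.of fun a b => B.P a b y)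
    isOpen_univ (fun _ _ => ⟨MSm.const _, Prj.one⟩)
    (fun y _ => ⟨fun a b => hB.sP a b y, by ext a b; simp [(hB.pr y).symm a b],
      by ext a b; simp [Matrix.mul_apply, (hB.pr y).idem]⟩) (Set.mem_univ x₀)
    (a₀ := Matrix.of fun a i => U₀ i a)
    ⟨by ext i k; simp [Matrix.mul_apply, h₀.of.on, Matrix.one_apply],
      by ext a b; simp [Matrix.mul_apply, h₀.of.P], by simp⟩
  have on : ∀ y ∈ O, ON (fun a b => B.P a b y) fun i b => a y b i := fun y hy =>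
    ⟨fun i k => by
      simpa [Matrix.mul_apply, Matrix.one_apply] using congrFun (congrFun (ha y hy).2.src i) k,
     fun b c => by simpa [Matrix.mul_apply] using congrFun (congrFun (ha y hy).2.tgt b) c⟩
  have U0 : (fun i b => a x₀ b i) = U₀ := by rw [a0]; rfl
  have c1 : (smAt I x₀).mem fun y =>
      ct (fun i b => a y b i) (fun a b c d => B.o a b c d y) 0 1 2 3 :=
    Kl.fsum _ fun b => Kl.fsum _ fun c => Kl.fsum _ fun d => Kl.fsum _ fun e =>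
      Kl.mul (Kl.mul (Kl.mul (Kl.mul ((ha x₀ o2).1 b 0) ((ha x₀ o2).1 c 1)) ((ha x₀ o2).1 d 2))
        ((ha x₀ o2).1 e 3)) (hB.so b c d e x₀)
  have c2 := (ContMDiffAt.continuousAt c1).eventually
    (lt_mem_nhds (a := 0) (by simp only [U0, h₀.of.ct, eps_0123]; norm_num))
  let n : M → ℝ := fun y => ⟪B.l y t₀, B.l y t₀⟫_ℝ
  have sl : ∀ y, (smAt I y).mem fun y => B.l y t₀ := fun y => Kl.appc (K := smAt I y) (hB.sl y) _
  have sn : ∀ y, (smAt I y).mem n := fun y => Kl.inner (sl y) (sl y)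
  have n0 : n x₀ = 1 := by simp [n, h₀.lf.ls, h₀.lf.n1]
  have c3 := (ContMDiffAt.continuousAt (sn x₀)).eventually
    (lt_mem_nhds (a := 0) (by rw [n0]; norm_num))
  refine ⟨fun y i b => a y b i, fun y => (√(n y))⁻¹ • B.l y t₀, U0, by simp [n0, h₀.lf.ls], ?_⟩
  filter_upwards [o1.mem_nhds o2, c2, c3] with y hy h2 h3
  refine ⟨fun i b => (ha y hy).1 b i, (smAt_inv_sqrt (sn y) h3).smul (sl y),
    (on y hy).of (altx hB y) (fun a b c d => hB.oP a b c d y) (hB.onm y) h2,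
    (plx hB y).lf ?_ ?_⟩
  · have e : √(n y) = ‖B.l y t₀‖ := (norm_eq_sqrt_real_inner _).symm
    rw [e]
    exact norm_smul_inv_norm (𝕜 := ℝ) fun h => by simp [n, h] at h3
  · rw [map_smul]
    exact congrArg _ (congrArg (fun T : En lam => T t₀) (hB.lidem y))

/-- **STD: smooth local frames**, with prescribed value at `x₀` -/
theorem exists_fx_ext (hB : B.OK I) (hO : IsOpen O) (H : OKOn I B m O) (hx : x₀ ∈ O)
    {U : M → Fin 4 → ι → ℝ} {s : M → Eu lam}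
    (h : ∀ᶠ x in 𝓝 x₀, (∀ i a, FSm I (fun y => U y i a) x) ∧ FSm I s x ∧ Bx B x (U x) (s x))
    {u₀ : S4 →ₗᵢ[ℝ] m.V} (h₀ : Fx B m x₀ (U x₀) (s x₀) u₀) :
    ∃ u : M → S4 →ₗᵢ[ℝ] m.V, u x₀ = u₀ ∧ ∀ᶠ x in 𝓝 x₀,
      FSm I (fun y => ((u y).toContinuousLinearMap : CL S4 m.V)) x ∧
        Fx B m x (U x) (s x) (u x) := by
  classical
  obtain ⟨i₀, n₀⟩ := Frm.itw h₀.pm h₀.of.toON h₀.lf h₀.nf
  obtain ⟨A, A0, hA⟩ := exists_local_itw (I := I) (V := S4) (P := fun x a b => B.P a b x)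
    (l := B.l) (il := B.il) (p := fun _ => 1) (ρ := fun x a => r0 (tq (U x) a))
    (j := fun x => j0 B.il (s x)) (p' := m.p) (ρ' := fun x a => m.ρ a x)
    ((h.and (hO.eventually_mem hx)).mono fun x ⟨⟨a, b, c⟩, hx⟩ => ⟨⟨_, c.of.toON⟩, plx hB x,
      pm_std c.of.toON (plx hB x) c.lf, pmx_on H hx,
      fun e => by
        simp only [r0_tq]
        exact Kl.fsum _ fun i => Kl.smul (K := smAt I x) (a i e) ((smAt I x).const _),
      Kl.j0 (K := smAt I x) B.il b,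
      fun a => H.sρ a x hx, H.sj x hx⟩) i₀ n₀
  have ex : ∀ᶠ x in 𝓝 x₀, ∃ w : S4 →ₗᵢ[ℝ] m.V, w.toContinuousLinearMap = A x ∧
      Fx B m x (U x) (s x) w := by
    filter_upwards [hA, h, hO.eventually_mem hx] with x h1 h2 h3
    obtain ⟨w, w1, w2⟩ := frm_of_itw (pmx_on H h3) h2.2.2.of.toON (plx hB x) h2.2.2.lf h1.2.1 h1.2.2
    exact ⟨w, w1, h2.2.2, pmx_on H h3, w2⟩
  let u : M → S4 →ₗᵢ[ℝ] m.V := fun x => if e : ∃ w : S4 →ₗᵢ[ℝ] m.V,
    w.toContinuousLinearMap = A x ∧ Fx B m x (U x) (s x) w then e.choose else u₀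
  have hu : ∀ᶠ x in 𝓝 x₀, (u x).toContinuousLinearMap = A x ∧ Fx B m x (U x) (s x) (u x) :=
    ex.mono fun x e => by simp only [u, dif_pos e]; exact e.choose_spec
  refine ⟨u, LinearIsometry.toContinuousLinearMap_injective (hu.self_of_nhds.1.trans A0), ?_⟩
  filter_upwards [hA, hu.eventually_nhds] with x h1 h2
  exact ⟨h1.1.congr_of_eventuallyEq (h2.mono fun y hy => hy.1), h2.self_of_nhds.2⟩

/-- **STD**: smooth local frames on an open neighbourhood -/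
theorem exists_fx_near (hB : B.OK I) (hO : IsOpen O) (H : OKOn I B m O) (hx : x₀ ∈ O) :
    ∃ (O' : Set M) (U : M → Fin 4 → ι → ℝ) (s : M → Eu lam) (u : M → S4 →ₗᵢ[ℝ] m.V),
      IsOpen O' ∧ x₀ ∈ O' ∧ O' ⊆ O ∧ ∀ x ∈ O', (∀ i a, FSm I (fun y => U y i a) x) ∧ FSm I s x ∧
        FSm I (fun y => ((u y).toContinuousLinearMap : CL S4 m.V)) x ∧
        Fx B m x (U x) (s x) (u x) := by
  obtain ⟨U₀, t₀, h₀⟩ := exists_bx hB x₀
  obtain ⟨U, s, -, -, h⟩ := exists_bx_near hB h₀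
  obtain ⟨u₀, k₀⟩ := h.self_of_nhds.2.2.exists_fx (pmx_on H hx)
  obtain ⟨u, -, k⟩ := exists_fx_ext hB hO H hx h k₀
  obtain ⟨O', h1, h2, h3⟩ := mem_nhds_iff.1 (h.and (k.and (hO.eventually_mem hx)))
  exact ⟨O', U, s, u, h2, h3, fun y hy => (h1 hy).2.2,
    fun y hy => ⟨(h1 hy).1.1, (h1 hy).1.2.1, (h1 hy).2.1⟩⟩

end Crest.Agent.X212.Std94
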