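import Mathlib

/-! Orthonormal frames of projectors; alternating four-tensors. -/

noncomputable section
namespace Crest.Agent.X212.Std94
open Module Finset
open scoped InnerProductSpace

theorem finrank_range_of_trace {W : Type*} [AddCommGroup W] [Module ℝ W] [FiniteDimensional ℝ W]
    {T : W →ₗ[ℝ] W} (hi : ∀ w, T (T w) = T w) {n : ℕ} (ht : LinearMap.trace ℝ W T = n) :
    finrank ℝ T.range = n := by
  have h : IsIdempotentElem T := LinearMap.ext hi
  have := (LinearMap.IsIdempotentElem.isProj_range _ h).trace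
  rw [ht] at this
  exact_mod_cast this.symm

/-- an orthonormal frame of the range of an orthogonal projector -/
theorem exists_frame {W : Type*} [NormedAddCommGroup W] [InnerProductSpace ℝ W]
    [FiniteDimensional ℝ W] {T : W →ₗ[ℝ] W} (hi : ∀ w, T (T w) = T w)
    (hs : ∀ v w, ⟪T v, w⟫_ℝ = ⟪v, T w⟫_ℝ) {n : ℕ} (ht : LinearMap.trace ℝ W T = n) :
    ∃ b : Fin n → W, Orthonormal ℝ b ∧ (∀ i, T (b i) = b i) ∧
      ∀ w, T w = ∑ i, ⟪b i, w⟫_ℝ • b i := by
  have hn := finrank_range_of_trace hi ht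
  let c := (stdOrthonormalBasis ℝ T.range).reindex (finCongr hn)
  have hT : ∀ i, T (c i : W) = c i := fun i => by
    obtain ⟨y, hy⟩ := (c i).2
    rw [← hy, hi]
  refine ⟨fun i => c i, ?_, hT, fun w => ?_⟩
  · exact c.orthonormal.comp_linearIsometry T.range.subtypeₗᵢ
  · have := congrArg Subtype.val (c.sum_repr' ⟨T w, w, rfl⟩)
    simp only [Submodule.coe_sum, Submodule.coe_smul] at this
    rw [← this]
    refine sum_congr rfl fun i _ => ?_
    congr 1
    change ⟪(c i : W), T w⟫_ℝ = _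
    rw [← hs, hT]

/-- a frame of a symmetric idempotent matrix of trace `n` -/
theorem exists_frame_mat {ι : Type*} [Fintype ι] {P : ι → ι → ℝ} (hs : ∀ a b, P a b = P b a)
    (hi : ∀ a b, ∑ k, P a k * P k b = P a b) {n : ℕ} (ht : ∑ a, P a a = n) :
    ∃ U : Fin n → ι → ℝ, (∀ i j, ∑ a, U i a * U j a = if i = j then 1 else 0) ∧
      ∀ a b, ∑ i, U i a * U i b = P a b := by
  classical
  let T : EuclideanSpace ℝ ι →ₗ[ℝ] EuclideanSpace ℝ ι :=
    { toFun := fun w => WithLp.toLp 2 fun a => ∑ b, P a b * w b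
      map_add' := fun v w => by ext a; simp [mul_add, sum_add_distrib]
      map_smul' := fun c w => by ext a; simp [mul_sum, mul_left_comm] }
  have hT : ∀ w a, T w a = ∑ b, P a b * w b := fun w a => rfl
  obtain ⟨b, b1, -, b3⟩ := exists_frame (T := T) (n := n)
    (fun w => by
      ext a
      simp only [hT, mul_sum, ← mul_assoc]
      rw [sum_comm]
      simp only [← sum_mul, hi])
    (fun v w => by
      simp only [PiLp.inner_apply, hT, RCLike.inner_apply, conj_trivial, mul_sum, sum_mul]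
      rw [sum_comm]
      exact sum_congr rfl fun a _ => sum_congr rfl fun c _ => by rw [hs c a]; ring)
    (by
      rw [LinearMap.trace_eq_sum_inner _ (EuclideanSpace.basisFun ι ℝ), ← ht]
      refine sum_congr rfl fun a _ => ?_
      simp [EuclideanSpace.inner_single_left, hT])
  refine ⟨fun i a => b i a, fun i j => ?_, fun a c => ?_⟩
  · rw [← orthonormal_iff_ite.1 b1 i j, PiLp.inner_apply]
    exact sum_congr rfl fun a _ => by simp [mul_comm]
  · have := congrArg (fun w : EuclideanSpace ℝ ι => w a) (b3 (EuclideanSpace.single c 1))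
    simp only [hT, EuclideanSpace.inner_single_right, WithLp.ofLp_sum, Finset.sum_apply] at this
    simpa [mul_comm] using this.symm

/-- sum of a function that is symmetric and vanishes on the diagonals -/
theorem sum4 {N : Type*} [AddCommGroup N] [Module ℝ N] (f : Fin 4 → Fin 4 → Fin 4 → Fin 4 → N)
    (h12 : ∀ i j k l, f i j k l = f j i k l) (h23 : ∀ i j k l, f i j k l = f i k j l)
    (h34 : ∀ i j k l, f i j k l = f i j l k) (z : ∀ i k l, f i i k l = 0) :
    ∑ i, ∑ j, ∑ k, ∑ l, f i j k l = (24 : ℝ) • f 0 1 2 3 := by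
  have z23 : ∀ i j l, f i j j l = 0 := fun i j l => by rw [h12, h23, z]
  have z34 : ∀ i j k, f i j k k = 0 := fun i j k => by rw [h23, h34, z23]
  have s12 : ∀ i j k l, j < i → f i j k l = f j i k l := fun i j k l _ => h12 i j k l
  have s23 : ∀ i j k l, k < j → f i j k l = f i k j l := fun i j k l _ => h23 i j k l
  have s34 : ∀ i j k l, l < k → f i j k l = f i j l k := fun i j k l _ => h34 i j k l
  simp (disch := decide) only [Fin.sum_univ_four, s12, s23, s34, z, z23, z34, add_zero, zero_add]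
  module

/-- the Levi-Civita symbol -/
def eps (i j k l : Fin 4) : ℝ :=
  ((j : ℝ) - i) * ((k : ℝ) - i) * ((l : ℝ) - i) * ((k : ℝ) - j) * ((l : ℝ) - j) * ((l : ℝ) - k) / 12

/-- alternating tensors -/
structure Alt {ι : Type*} (o : ι → ι → ι → ι → ℝ) : Prop where
  o12 : ∀ a b c d, o a b c d = -o b a c d
  o23 : ∀ a b c d, o a b c d = -o a c b d
  o34 : ∀ a b c d, o a b c d = -o a b d c

theorem Alt.z {ι : Type*} {o : ι → ι → ι → ι → ℝ} (h : Alt o) (a c d : ι) : o a a c d = 0 := by
  linarith [h.o12 a a c d]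

theorem alt_eps : Alt eps :=
  ⟨fun a b c d => by unfold eps; ring, fun a b c d => by unfold eps; ring,
    fun a b c d => by unfold eps; ring⟩

theorem eps_0123 : eps 0 1 2 3 = 1 := by norm_num [eps]

theorem Alt.sum_sq {O : Fin 4 → Fin 4 → Fin 4 → Fin 4 → ℝ} (h : Alt O) :
    ∑ i, ∑ j, ∑ k, ∑ l, O i j k l ^ 2 = 24 * O 0 1 2 3 ^ 2 :=
  sum4 (fun i j k l => O i j k l ^ 2) (fun i j k l => by rw [h.o12, neg_sq])
    (fun i j k l => by rw [h.o23, neg_sq]) (fun i j k l => by rw [h.o34, neg_sq])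
    fun i k l => by simp [h.z]

theorem Alt.eq_eps {O : Fin 4 → Fin 4 → Fin 4 → Fin 4 → ℝ} (h : Alt O) (i j k l : Fin 4) :
    O i j k l = O 0 1 2 3 * eps i j k l := by
  have hD : Alt fun i j k l => O i j k l - O 0 1 2 3 * eps i j k l :=
    ⟨fun a b c d => by rw [h.o12 a, alt_eps.o12 a]; ring,
      fun a b c d => by rw [h.o23 a, alt_eps.o23 a]; ring,
      fun a b c d => by rw [h.o34 a, alt_eps.o34 a]; ring⟩
  have h0 := hD.sum_sq
  simp only [eps_0123, mul_one, sub_self] at h0
  have nn : ∀ i j k l, 0 ≤ (O i j k l - O 0 1 2 3 * eps i j k l) ^ 2 := fun _ _ _ _ => sq_nonneg _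
  have h1 := (sum_eq_zero_iff_of_nonneg fun i _ => sum_nonneg fun j _ => sum_nonneg fun k _ =>
    sum_nonneg fun l _ => nn i j k l).1 (h0.trans (by norm_num)) i (mem_univ _)
  have h2 := (sum_eq_zero_iff_of_nonneg fun j _ => sum_nonneg fun k _ =>
    sum_nonneg fun l _ => nn i j k l).1 h1 j (mem_univ _)
  have h3 := (sum_eq_zero_iff_of_nonneg fun k _ => sum_nonneg fun l _ => nn i j k l).1 h2 k
    (mem_univ _)
  have h4 := (sum_eq_zero_iff_of_nonneg fun l _ => nn i j k l).1 h3 l (mem_univ _)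
  exact sub_eq_zero.1 (pow_eq_zero_iff two_ne_zero |>.1 h4)

section ct
variable {ι κ : Type*} [Fintype ι] [Fintype κ]

/-- contraction of a four-tensor with a matrix in all slots -/
def ct (U : κ → ι → ℝ) (o : ι → ι → ι → ι → ℝ) (i j k l : κ) : ℝ :=
  ∑ a, ∑ b, ∑ c, ∑ d, U i a * U j b * U k c * U l d * o a b c d

theorem sum8 {N : Type*} [AddCommMonoid N] (f : ι → ι → ι → ι → κ → κ → κ → κ → N) :
    ∑ a, ∑ b, ∑ c, ∑ d, ∑ i, ∑ j, ∑ k, ∑ l, f a b c d i j k l =
      ∑ i, ∑ j, ∑ k, ∑ l, ∑ a, ∑ b, ∑ c, ∑ d, f a b c d i j k l := by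
  have := sum_comm (s := univ) (t := univ) (f := fun (t : ι × ι × ι × ι) (s : κ × κ × κ × κ) =>
    f t.1 t.2.1 t.2.2.1 t.2.2.2 s.1 s.2.1 s.2.2.1 s.2.2.2)
  simpa only [Fintype.sum_prod_type] using this

theorem prod4 {A : Type*} [Semiring A] (x y z w : κ → A) :
    (∑ i, x i) * (∑ j, y j) * (∑ k, z k) * (∑ l, w l) =
      ∑ i, ∑ j, ∑ k, ∑ l, x i * y j * z k * w l := by
  rw [sum_mul_sum, sum_mul, sum_mul]
  refine sum_congr rfl fun i _ => ?_
  rw [sum_mul, sum_mul]
  refine sum_congr rfl fun j _ => ?_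
  rw [mul_sum univ z, sum_mul]
  exact sum_congr rfl fun k _ => mul_sum _ _ _

/-- change of frame in a quartic form -/
theorem ct_sum {A : Type*} [Ring A] [Algebra ℝ A] (U : κ → ι → ℝ) (o : ι → ι → ι → ι → ℝ)
    (x y z w : κ → A) :
    ∑ a, ∑ b, ∑ c, ∑ d, o a b c d • ((∑ i, U i a • x i) * (∑ i, U i b • y i) *
      (∑ i, U i c • z i) * ∑ i, U i d • w i) =
      ∑ i, ∑ j, ∑ k, ∑ l, ct U o i j k l • (x i * y j * z k * w l) := by
  simp only [prod4, smul_sum, ct, sum_smul]
  rw [sum8]
  simp only [smul_mul_assoc, mul_smul_comm, smul_smul]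
  refine sum_congr rfl fun i _ => sum_congr rfl fun j _ => sum_congr rfl fun k _ =>
    sum_congr rfl fun l _ => sum_congr rfl fun a _ => sum_congr rfl fun b _ =>
    sum_congr rfl fun c _ => sum_congr rfl fun d _ => ?_
  congr 1
  ring

theorem ct_ct {μ : Type*} [Fintype μ] (U : κ → ι → ℝ) (U' : μ → κ → ℝ) (o : ι → ι → ι → ι → ℝ)
    (s t u v : μ) :
    ct U' (ct U o) s t u v = ct (fun s a => ∑ i, U' s i * U i a) o s t u v := by
  simp only [ct, prod4]
  simp only [mul_sum, sum_mul]
  rw [sum8]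
  refine sum_congr rfl fun i _ => sum_congr rfl fun j _ => sum_congr rfl fun k _ =>
    sum_congr rfl fun l _ => sum_congr rfl fun a _ => sum_congr rfl fun b _ =>
    sum_congr rfl fun c _ => sum_congr rfl fun d _ => ?_
  ring

omit [Fintype κ] in
theorem Alt.ct {o : ι → ι → ι → ι → ℝ} (h : Alt o) (U : κ → ι → ℝ) : Alt (ct U o) := by
  refine ⟨fun i j k l => ?_, fun i j k l => ?_, fun i j k l => ?_⟩ <;>
    simp only [Std94.ct, ← sum_neg_distrib]
  · rw [sum_comm]
    exact sum_congr rfl fun a _ => sum_congr rfl fun b _ => sum_congr rfl fun c _ =>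
      sum_congr rfl fun d _ => by rw [h.o12 b]; ring
  · refine sum_congr rfl fun a _ => ?_
    rw [sum_comm]
    exact sum_congr rfl fun b _ => sum_congr rfl fun c _ =>
      sum_congr rfl fun d _ => by rw [h.o23 a c]; ring
  · refine sum_congr rfl fun a _ => sum_congr rfl fun b _ => ?_
    rw [sum_comm]
    exact sum_congr rfl fun c _ => sum_congr rfl fun d _ => by rw [h.o34 a b d]; ring

/-- an alternating tensor projected in the first slot is projected in all slots -/
theorem Alt.ct_proj {o : ι → ι → ι → ι → ℝ} (h : Alt o) {P : ι → ι → ℝ}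
    (hP : ∀ a b c d, ∑ k, P a k * o k b c d = o a b c d) (a b c d : ι) :
    Std94.ct P o a b c d = o a b c d := by
  have p2 : ∀ a b c d, ∑ k, P b k * o a k c d = o a b c d := fun a b c d => by
    rw [h.o12 a b, ← hP, ← sum_neg_distrib]
    exact sum_congr rfl fun k _ => by rw [h.o12 a k]; ring
  have p3 : ∀ a b c d, ∑ k, P c k * o a b k d = o a b c d := fun a b c d => by
    rw [h.o23 a b, ← p2, ← sum_neg_distrib]
    exact sum_congr rfl fun k _ => by rw [h.o23 a b k]; ring
  have p4 : ∀ a b c d, ∑ k, P d k * o a b c k = o a b c d := fun a b c d => by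
    rw [h.o34 a b, ← p3, ← sum_neg_distrib]
    exact sum_congr rfl fun k _ => by rw [h.o34 a b c k]; ring
  simp only [Std94.ct, mul_assoc, ← mul_sum, p4, p3, p2, hP]

/-- a positively oriented orthonormal frame -/
structure OF (P : ι → ι → ℝ) (o : ι → ι → ι → ι → ℝ) (U : Fin 4 → ι → ℝ) : Prop where
  on : ∀ i j, ∑ a, U i a * U j a = if i = j then 1 else 0
  P : ∀ a b, ∑ i, U i a * U i b = P a b
  ct : ∀ i j k l, ct U o i j k l = eps i j k l
  o : ∀ a b c d, o a b c d = Std94.ct (fun a i => U i a) eps a b c d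

theorem exists_OF {P : ι → ι → ℝ} {o : ι → ι → ι → ι → ℝ} (hs : ∀ a b, P a b = P b a)
    (hi : ∀ a b, ∑ k, P a k * P k b = P a b) (ht : ∑ a, P a a = 4) (h : Alt o)
    (hP : ∀ a b c d, ∑ k, P a k * o k b c d = o a b c d)
    (hn : ∑ a, ∑ b, ∑ c, ∑ d, o a b c d ^ 2 = 24) : ∃ U, OF P o U := by
  have back : ∀ U : Fin 4 → ι → ℝ, (∀ a b, ∑ i, U i a * U i b = P a b) → ∀ a b c d,
      o a b c d = ct (fun a i => U i a) (ct U o) a b c d := fun U hU a b c d => by
    rw [ct_ct]; simp only [hU]; exact (h.ct_proj hP a b c d).symm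
  have key : ∀ U : Fin 4 → ι → ℝ, (∀ i j, ∑ a, U i a * U j a = if i = j then 1 else 0) →
      (∀ a b, ∑ i, U i a * U i b = P a b) → ct U o 0 1 2 3 = 1 → OF P o U := fun U h1 h2 h3 => by
    have e : ct U o = eps := by
      funext i j k l; rw [(h.ct U).eq_eps, h3, one_mul]
    exact ⟨h1, h2, fun i j k l => by rw [e], fun a b c d => by rw [← e]; exact back U h2 a b c d⟩
  obtain ⟨U, h1, h2⟩ := exists_frame_mat hs hi (n := 4) (by exact_mod_cast ht)
  have sq : ct U o 0 1 2 3 ^ 2 = 1 := by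
    have e1 : ∑ a, ∑ b, ∑ c, ∑ d, o a b c d ^ 2 =
        ∑ i, ∑ j, ∑ k, ∑ l, ct U o i j k l ^ 2 := by
      calc _ = ∑ a, ∑ b, ∑ c, ∑ d, ∑ i, ∑ j, ∑ k, ∑ l,
            U i a * U j b * U k c * U l d * o a b c d * ct U o i j k l := by
            refine sum_congr rfl fun a _ => sum_congr rfl fun b _ => sum_congr rfl fun c _ =>
              sum_congr rfl fun d _ => ?_
            rw [sq]
            nth_rewrite 2 [back U h2 a b c d]
            generalize ct U o = O
            simp only [ct, mul_sum]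
            exact sum_congr rfl fun i _ => sum_congr rfl fun j _ => sum_congr rfl fun k _ =>
              sum_congr rfl fun l _ => by ring
        _ = _ := by
            rw [sum8]
            simp only [← sum_mul, sq]
            rfl
    rw [hn, (h.ct U).sum_sq] at e1
    linarith
  rcases sq_eq_one_iff.1 sq with e | e
  · exact ⟨U, key U h1 h2 e⟩
  · refine ⟨fun i a => (if i = 0 then -1 else 1) * U i a, key _ (fun i j => ?_) (fun a b => ?_) ?_⟩
    · have : ∀ a, (if i = 0 then -1 else 1) * U i a * ((if j = 0 then -1 else 1) * U j a) =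
          ((if i = 0 then -1 else 1) * (if j = 0 then -1 else 1)) * (U i a * U j a) :=
        fun a => by ring
      simp only [this, ← mul_sum, h1]
      split_ifs <;> simp_all
    · rw [← h2]
      exact sum_congr rfl fun i _ => by split_ifs <;> ring
    · have e' := neg_eq_iff_eq_neg.2 e
      simp only [ct] at e'
      simpa [ct] using e'

end ct

end Crest.Agent.X212.Std94
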