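import Crest.Agent.X212.Std94.Xi
import Crest.Agent.X212.Std94.Alt
import Crest.Agent.X212.Wz78.Alg

/-! Spin^u modules at a point, in a spanning frame. -/

set_option linter.unusedSectionVars false
noncomputable section
namespace Crest.Agent.X212.Std94
open Quaternion Module Finset Wz78
open scoped InnerProductSpace

variable {V V' L : Type*} [NormedAddCommGroup V] [InnerProductSpace ℝ V] [FiniteDimensional ℝ V]
  [NormedAddCommGroup V'] [InnerProductSpace ℝ V'] [FiniteDimensional ℝ V']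
  [NormedAddCommGroup L] [InnerProductSpace ℝ L] [FiniteDimensional ℝ L]
  {ι : Type*} [Fintype ι]

/-- a hermitian line at a point -/
structure PL (l il : L →L[ℝ] L) : Prop where
  sym : ∀ v w, ⟪l v, w⟫_ℝ = ⟪v, l w⟫_ℝ
  idem : l * l = l
  rk : LinearMap.trace ℝ L (l : L →ₗ[ℝ] L) = 2
  sq : il * il = -1
  sk : ∀ v w, ⟪il v, w⟫_ℝ = -⟪v, il w⟫_ℝ
  comm : il * l = l * il

/-- a unit vector of the line -/
structure LF (l il : L →L[ℝ] L) (s₀ : L) : Prop where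
  n1 : ‖s₀‖ = 1
  n2 : ‖il s₀‖ = 1
  ls : l s₀ = s₀
  dec : ∀ s, l s = ⟪s₀, s⟫_ℝ • s₀ + ⟪il s₀, s⟫_ℝ • il s₀

variable {l il : L →L[ℝ] L}

theorem PL.norm_il (h : PL l il) (s : L) : ‖il s‖ = ‖s‖ := by
  have e : ⟪il s, il s⟫_ℝ = ⟪s, s⟫_ℝ := by
    have : il (il s) = -s := congrArg (fun T : L →L[ℝ] L => T s) h.sq
    rw [h.sk, this, inner_neg_right, neg_neg]
  rw [real_inner_self_eq_norm_sq, real_inner_self_eq_norm_sq] at e
  exact (pow_left_inj₀ (norm_nonneg _) (norm_nonneg _) two_ne_zero).1 e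

/-- every unit vector of the line is a frame -/
theorem PL.lf (h : PL l il) {s₀ : L} (n1 : ‖s₀‖ = 1) (ls : l s₀ = s₀) : LF l il s₀ := by
  have hi : ∀ w, l (l w) = l w := fun w => congrArg (fun T : L →L[ℝ] L => T w) h.idem
  have lt : l (il s₀) = il s₀ := by
    have := congrArg (fun T : L →L[ℝ] L => T s₀) h.comm
    simp only [mul_apply_eq_comp, ls] at this
    exact this.symm
  have n2 : ‖il s₀‖ = 1 := by rw [h.norm_il, n1]
  have o : ⟪s₀, il s₀⟫_ℝ = 0 := by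
    have := h.sk s₀ s₀
    rw [real_inner_comm] at this
    linarith
  refine ⟨n1, n2, ls, fun s => ?_⟩
  have hr := finrank_range_of_trace (T := (l : L →ₗ[ℝ] L)) hi (n := 2) (by exact_mod_cast h.rk)
  let v : Fin 2 → (l : L →ₗ[ℝ] L).range := ![⟨s₀, s₀, ls⟩, ⟨il s₀, il s₀, lt⟩]
  have hv : Orthonormal ℝ v := by
    rw [orthonormal_iff_ite]
    intro i k
    fin_cases i <;> fin_cases k
    · simp [v, n1]
    · simpa [v] using o
    · simpa [v, real_inner_comm] using o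
    · simp [v, n2]
  let b := basisOfOrthonormalOfCardEqFinrank hv (by simp [hr])
  have hb : ⇑b = v := coe_basisOfOrthonormalOfCardEqFinrank _ _
  have := congrArg Subtype.val ((b.toOrthonormalBasis (hb ▸ hv)).sum_repr' ⟨l s, s, rfl⟩)
  simp only [Basis.coe_toOrthonormalBasis, hb, Fin.sum_univ_two, Submodule.coe_add,
    Submodule.coe_smul] at this
  rw [← this]
  change ⟪s₀, l s⟫_ℝ • s₀ + ⟪il s₀, l s⟫_ℝ • il s₀ = _
  rw [← h.sym, ← h.sym, ls, lt]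

theorem PL.exists_lf (h : PL l il) : ∃ s₀, LF l il s₀ := by
  obtain ⟨b, b1, b2, -⟩ := exists_frame (T := (l : L →ₗ[ℝ] L)) (n := 2)
    (fun w => congrArg (fun T : L →L[ℝ] L => T w) h.idem) h.sym (by exact_mod_cast h.rk)
  exact ⟨b 0, h.lf (b1.1 0) (b2 0)⟩

/-- a spin^u module at a point -/
structure PM (P : ι → ι → ℝ) (l il : L →L[ℝ] L) (p J : V →L[ℝ] V) (ρ : ι → V →L[ℝ] V)
    (j : L →L[ℝ] V →L[ℝ] V) : Prop where
  Jsq : J * J = -1
  Jsk : ∀ v w, ⟪J v, w⟫_ℝ = -⟪v, J w⟫_ℝ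
  psym : ∀ v w, ⟪p v, w⟫_ℝ = ⟪v, p w⟫_ℝ
  pidem : p * p = p
  prk : LinearMap.trace ℝ V (p : V →ₗ[ℝ] V) = 16
  Jp : J * p = p * J
  cl : Cl P p ρ
  ρsk : ∀ a v w, ⟪ρ a v, w⟫_ℝ = -⟪v, ρ a w⟫_ℝ
  Jρ : ∀ a, J * ρ a = ρ a * J
  jsym : ∀ s v w, ⟪j s v, w⟫_ℝ = ⟪v, j s w⟫_ℝ
  jJ : ∀ s, j s * J = -(J * j s)
  jil : ∀ s, j (il s) = J * j s
  jl : ∀ s, j (l s) = j s
  jsq : ∀ s, j s * j s = ‖l s‖ ^ 2 • p
  pj : ∀ s, p * j s = j s
  jρ : ∀ a s, j s * ρ a = ρ a * j s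

/-- an orthonormal frame of the range of `P` -/
structure ON (P : ι → ι → ℝ) (U : Fin 4 → ι → ℝ) : Prop where
  on : ∀ i j, ∑ a, U i a * U j a = if i = j then 1 else 0
  P : ∀ a b, ∑ i, U i a * U i b = P a b

theorem OF.toON {P : ι → ι → ℝ} {o : ι → ι → ι → ι → ℝ} {U : Fin 4 → ι → ℝ} (h : OF P o U) :
    ON P U := ⟨h.on, h.P⟩

theorem exists_ON {P : ι → ι → ℝ} (h : Pr P) (ht : ∑ a, P a a = 4) : ∃ U, ON P U := by
  obtain ⟨U, h1, h2⟩ := exists_frame_mat h.symm h.idem (n := 4) (by exact_mod_cast ht)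
  exact ⟨U, h1, h2⟩

/-- the Clifford generators in the frame `U` -/
def fr {A : Type*} [AddCommMonoid A] [Module ℝ A] (U : Fin 4 → ι → ℝ) (ρ : ι → A) (i : Fin 4) :
    A := ∑ a, U i a • ρ a

variable {P : ι → ι → ℝ} {p J : V →L[ℝ] V} {ρ : ι → V →L[ℝ] V} {j : L →L[ℝ] V →L[ℝ] V}
  {p' J' : V' →L[ℝ] V'} {ρ' : ι → V' →L[ℝ] V'} {j' : L →L[ℝ] V' →L[ℝ] V'}
  {U : Fin 4 → ι → ℝ} {s₀ : L}

theorem fr_apply (U : Fin 4 → ι → ℝ) (ρ : ι → V →L[ℝ] V) (i : Fin 4) (v : V) :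
    fr U ρ i v = ∑ a, U i a • ρ a v := by simp [fr]

theorem ON.rho_eq {A : Type*} [Ring A] [Algebra ℝ A] {p : A} {ρ : ι → A} (hU : ON P U)
    (h : Cl P p ρ) (a : ι) : ρ a = ∑ i, U i a • fr U ρ i := by
  simp only [fr, smul_sum, smul_smul]
  rw [sum_comm]
  simp only [← sum_smul, hU.P, h.proj]

theorem ON.rel {A : Type*} [Ring A] [Algebra ℝ A] {p : A} {ρ : ι → A} (hU : ON P U)
    (h : Cl P p ρ) (i k : Fin 4) :
    fr U ρ i * fr U ρ k + fr U ρ k * fr U ρ i = (-2 * if i = k then 1 else 0 : ℝ) • p := by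
  have e1 : fr U ρ i * fr U ρ k = ∑ a, ∑ b, (U i a * U k b) • (ρ a * ρ b) := by
    simp only [fr, sum_mul_sum, smul_mul_smul_comm]
  have e2 : fr U ρ k * fr U ρ i = ∑ a, ∑ b, (U i a * U k b) • (ρ b * ρ a) := by
    simp only [fr, sum_mul_sum, smul_mul_smul_comm]
    rw [sum_comm]
    simp only [mul_comm]
  have e3 : ∑ a, ∑ b, U i a * U k b * P a b = if i = k then 1 else 0 := by
    calc _ = ∑ a, ∑ b, ∑ n, (U i a * U n a) * (U k b * U n b) := by
          simp only [← hU.P, mul_sum]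
          exact sum_congr rfl fun a _ => sum_congr rfl fun b _ => sum_congr rfl fun n _ => by ring
      _ = ∑ n, (∑ a, U i a * U n a) * ∑ b, U k b * U n b := by
          simp only [sum_mul_sum]
          rw [sum_comm (s := univ) (t := univ) (f := fun n a => ∑ b, U i a * U n a *
            (U k b * U n b))]
          exact sum_congr rfl fun a _ => sum_comm
      _ = _ := by simp [hU.on]
  rw [e1, e2, ← e3]
  simp only [← sum_add_distrib, ← smul_add, h.rel, smul_smul, ← sum_smul, mul_sum]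
  congr 1
  exact sum_congr rfl fun a _ => sum_congr rfl fun b _ => by ring

theorem PM.j_eq (h : PM P l il p J ρ j) (hs : LF l il s₀) (s : L) :
    j s = ⟪s₀, s⟫_ℝ • j s₀ + ⟪il s₀, s⟫_ℝ • (J * j s₀) := by
  rw [← h.jl, hs.dec, map_add, map_smul, map_smul, h.jil]

theorem PM.q4 (h : PM P l il p J ρ j) (hU : ON P U) (hs : LF l il s₀) :
    Q4 p J (j s₀) (fr U ρ) := by
  have ap : ∀ {S T : V →L[ℝ] V}, S = T → ∀ v, S v = T v := fun e v => by rw [e]
  refine ⟨ap h.pidem, h.psym,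
    finrank_range_of_trace (T := (p : V →ₗ[ℝ] V)) (ap h.pidem) (by exact_mod_cast h.prk),
    fun v => ap h.Jsq _, h.Jsk, fun v => (ap h.Jp v).symm, fun a v => ?_, fun a b hab v => ?_,
    fun a v => ?_, fun a v => ?_, fun a v w => ?_, fun a v => ?_, fun v => ?_, h.jsym _,
    ap (h.jJ _), fun a v => ?_⟩
  · have e := ap (hU.rel h.cl a a) v
    simp only [add_apply, mul_apply_eq_comp, if_true, smul_apply, mul_one] at e
    refine smul_right_injective V (two_ne_zero (α := ℝ)) ?_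
    simp only [two_smul]
    rw [e]; module
  · have e := ap (hU.rel h.cl a b) v
    simp only [add_apply, mul_apply_eq_comp, if_neg hab, mul_zero,
      zero_smul] at e
    exact eq_neg_of_add_eq_zero_left e
  · simp only [fr_apply, map_sum, map_smul]
    exact sum_congr rfl fun b _ => congrArg _ (ap (h.cl.pl b) v)
  · simp only [fr_apply]
    exact sum_congr rfl fun b _ => congrArg _ (ap (h.cl.pr b) v)
  · simp only [fr_apply, sum_inner, inner_sum, real_inner_smul_left, real_inner_smul_right,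
      h.ρsk, mul_neg, sum_neg_distrib]
  · simp only [fr_apply, map_sum, map_smul]
    exact sum_congr rfl fun b _ => congrArg _ (ap (h.Jρ b) v).symm
  · have e := ap (h.jsq s₀) v
    rw [hs.ls, hs.n1, one_pow, one_smul] at e
    exact e
  · simp only [fr_apply, map_sum, map_smul]
    exact sum_congr rfl fun b _ => congrArg _ (ap (h.jρ b s₀) v)

/-- the volume element in an oriented frame -/
theorem PM.om_eq (h : PM P l il p J ρ j) {o : ι → ι → ι → ι → ℝ} (hU : OF P o U) :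
    (1 / 24 : ℝ) • ∑ a, ∑ b, ∑ c, ∑ d, o a b c d • (ρ a * ρ b * ρ c * ρ d) =
      fr U ρ 0 * fr U ρ 1 * fr U ρ 2 * fr U ρ 3 := by
  have e := ct_sum U o (fr U ρ) (fr U ρ) (fr U ρ) (fr U ρ)
  simp only [← hU.toON.rho_eq h.cl, hU.ct] at e
  have ac : ∀ i k, i ≠ k → fr U ρ i * fr U ρ k = -(fr U ρ k * fr U ρ i) := fun i k hik => by
    have := hU.toON.rel h.cl i k
    rw [if_neg hik, mul_zero, zero_smul] at this
    exact eq_neg_of_add_eq_zero_left this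
  rw [e, sum4 (fun i j k l => eps i j k l • (fr U ρ i * fr U ρ j * fr U ρ k * fr U ρ l))]
  · rw [eps_0123, one_smul, smul_smul]; norm_num
  · intro a b c d
    rcases eq_or_ne a b with rfl | n
    · rfl
    · rw [alt_eps.o12, ac _ _ n]; simp
  · intro a b c d
    rcases eq_or_ne b c with rfl | n
    · rfl
    · rw [alt_eps.o23, mul_assoc (fr U ρ a), ac _ _ n]; simp [mul_assoc]
  · intro a b c d
    rcases eq_or_ne c d with rfl | n
    · rfl
    · rw [alt_eps.o34, mul_assoc (fr U ρ a * _), ac _ _ n]; simp [mul_assoc]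
  · intro a c d
    rw [alt_eps.z, zero_smul]

/-- intertwiners of two modules -/
structure Itw (p J : V →L[ℝ] V) (ρ : ι → V →L[ℝ] V) (j : L →L[ℝ] V →L[ℝ] V)
    (p' J' : V' →L[ℝ] V') (ρ' : ι → V' →L[ℝ] V') (j' : L →L[ℝ] V' →L[ℝ] V')
    (A : V →L[ℝ] V') : Prop where
  pl : ∀ y, p' (A y) = A y
  pr : ∀ y, A (p y) = A y
  ρ : ∀ a y, A (ρ a y) = ρ' a (A y)
  J : ∀ y, A (J y) = J' (A y)
  j : ∀ s y, A (j s y) = j' s (A y)

theorem itw_iff_it4 (h : PM P l il p J ρ j) (h' : PM P l il p' J' ρ' j') (hU : ON P U)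
    (hs : LF l il s₀) (A : V →L[ℝ] V') : Itw p J ρ j p' J' ρ' j' A ↔
      It4 p J (j s₀) (fr U ρ) p' J' (j' s₀) (fr U ρ') A := by
  refine ⟨fun i => ⟨i.pl, i.pr, fun a y => ?_, i.J, i.j _⟩,
    fun i => ⟨i.pl, i.pr, fun a y => ?_, i.J, fun s y => ?_⟩⟩
  · simp only [fr_apply, map_sum, map_smul, i.ρ]
  · rw [hU.rho_eq h.cl a, hU.rho_eq h'.cl a]
    simp only [_root_.sum_apply, smul_apply, map_sum, map_smul, i.r]
  · rw [h.j_eq hs s, h'.j_eq hs s]
    simp only [add_apply, smul_apply, mul_apply_eq_comp, map_add, map_smul, i.J, i.k]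

/-- a frame of the module adapted to the frames `U`, `s₀` -/
abbrev Frm (U : Fin 4 → ι → ℝ) (s₀ : L) (p J : V →L[ℝ] V) (ρ : ι → V →L[ℝ] V)
    (j : L →L[ℝ] V →L[ℝ] V) (u : S4 →ₗᵢ[ℝ] V) : Prop := NF p J (j s₀) (fr U ρ) u

theorem PM.exists_frm (h : PM P l il p J ρ j) (hU : ON P U) (hs : LF l il s₀) :
    ∃ u, Frm U s₀ p J ρ j u := (h.q4 hU hs).exists_nf

theorem itw_iff_Xi (h : PM P l il p J ρ j) (h' : PM P l il p' J' ρ' j') (hU : ON P U)
    (hs : LF l il s₀) {u : S4 →ₗᵢ[ℝ] V} {u' : S4 →ₗᵢ[ℝ] V'} (hu : Frm U s₀ p J ρ j u)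
    (hu' : Frm U s₀ p' J' ρ' j' u') (A : V →L[ℝ] V') :
    Itw p J ρ j p' J' ρ' j' A ↔ ∃ c, A = Xi u' u c :=
  (itw_iff_it4 h h' hU hs A).trans (hu.it4_iff (h.q4 hU hs) hu' A)

/-- the components of the frame vectors as quaternions -/
def tq (U : Fin 4 → ι → ℝ) (a : ι) : ℍ := ⟨U 0 a, U 1 a, U 2 a, U 3 a⟩

theorem tq_eq (U : Fin 4 → ι → ℝ) (a : ι) : tq U a = ∑ i, U i a • qe i := by
  ext <;> simp [tq, Fin.sum_univ_four, qe]

theorem Frm.rho_u (h : PM P l il p J ρ j) (hU : ON P U) {u : S4 →ₗᵢ[ℝ] V}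
    (hu : Frm U s₀ p J ρ j u) (a : ι) (x : S4) : ρ a (u x) = u (r0 (tq U a) x) := by
  rw [hU.rho_eq h.cl a, tq_eq]
  simp only [add_apply, smul_apply, hu.ru, Fin.sum_univ_four, r0_add, r0_smul, map_add, map_smul]

theorem Frm.j_u (h : PM P l il p J ρ j) (hs : LF l il s₀) {u : S4 →ₗᵢ[ℝ] V}
    (hu : Frm U s₀ p J ρ j u) (s : L) (x : S4) :
    j s (u x) = u (⟪s₀, s⟫_ℝ • k0 x + ⟪il s₀, s⟫_ℝ • J0 (k0 x)) := by
  rw [h.j_eq hs s]
  simp only [add_apply, smul_apply, mul_apply_eq_comp, hu.ku, hu.Ju, map_add, map_smul]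

end Crest.Agent.X212.Std94
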