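import Crest.Agent.X212.Std94.Four

/-! The quaternions acting between two modules in normal form. -/

set_option linter.unusedSectionVars false
noncomputable section
namespace Crest.Agent.X212.Std94
open Quaternion Module
open scoped InnerProductSpace

variable {V V' V'' : Type*} [NormedAddCommGroup V] [InnerProductSpace ℝ V] [FiniteDimensional ℝ V]
  [NormedAddCommGroup V'] [InnerProductSpace ℝ V'] [FiniteDimensional ℝ V']
  [NormedAddCommGroup V''] [InnerProductSpace ℝ V''] [FiniteDimensional ℝ V'']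

/-- the left inverse (adjoint) of a frame -/
def ui (u : S4 →ₗᵢ[ℝ] V) : V →L[ℝ] S4 :=
  LinearMap.toContinuousLinearMap (LinearMap.adjoint u.toLinearMap)

theorem inner_ui (u : S4 →ₗᵢ[ℝ] V) (y : V) (x : S4) : ⟪ui u y, x⟫_ℝ = ⟪y, u x⟫_ℝ :=
  LinearMap.adjoint_inner_left u.toLinearMap x y

theorem inner_ui' (u : S4 →ₗᵢ[ℝ] V) (x : S4) (y : V) : ⟪x, ui u y⟫_ℝ = ⟪u x, y⟫_ℝ :=
  LinearMap.adjoint_inner_right u.toLinearMap x y

@[simp] theorem ui_u (u : S4 →ₗᵢ[ℝ] V) (x : S4) : ui u (u x) = x :=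
  ext_inner_right ℝ fun y => by rw [inner_ui, u.inner_map_map]

/-- `u' ∘ Rm c ∘ u*` -/
def Xi (u' : S4 →ₗᵢ[ℝ] V') (u : S4 →ₗᵢ[ℝ] V) : ℍ →ₗ[ℝ] V →L[ℝ] V' where
  toFun c := u'.toContinuousLinearMap ∘L Rm c ∘L ui u
  map_add' c d := by ext y; simp [Rm_add]
  map_smul' s c := by ext y; simp [Rm_smul]

theorem Xi_apply (u' : S4 →ₗᵢ[ℝ] V') (u : S4 →ₗᵢ[ℝ] V) (c : ℍ) (y : V) :
    Xi u' u c y = u' (Rm c (ui u y)) := rfl

theorem Xi_u (u' : S4 →ₗᵢ[ℝ] V') (u : S4 →ₗᵢ[ℝ] V) (c : ℍ) (x : S4) :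
    Xi u' u c (u x) = u' (Rm c x) := by rw [Xi_apply, ui_u]

theorem Xi_Xi (u'' : S4 →ₗᵢ[ℝ] V'') (u' : S4 →ₗᵢ[ℝ] V') (u : S4 →ₗᵢ[ℝ] V) (c d : ℍ) (y : V) :
    Xi u'' u' c (Xi u' u d y) = Xi u'' u (c * d) y := by
  simp only [Xi_apply, ui_u, Rm_mul]

theorem Xi_comp (u'' : S4 →ₗᵢ[ℝ] V'') (u' : S4 →ₗᵢ[ℝ] V') (u : S4 →ₗᵢ[ℝ] V) (c d : ℍ) :
    Xi u'' u' c ∘L Xi u' u d = Xi u'' u (c * d) := ContinuousLinearMap.ext (Xi_Xi u'' u' u c d)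

theorem Xi_mul (u : S4 →ₗᵢ[ℝ] V) (c d : ℍ) : Xi u u c * Xi u u d = Xi u u (c * d) :=
  Xi_comp u u u c d

theorem inner_Xi (u' : S4 →ₗᵢ[ℝ] V') (u : S4 →ₗᵢ[ℝ] V) (c : ℍ) (y : V) (z : V') :
    ⟪Xi u' u c y, z⟫_ℝ = ⟪y, Xi u u' (star c) z⟫_ℝ := by
  rw [Xi_apply, Xi_apply, ← inner_ui', inner_Rm, inner_ui]

theorem Xi_inj (u' : S4 →ₗᵢ[ℝ] V') (u : S4 →ₗᵢ[ℝ] V) : Function.Injective (Xi u' u) := by
  refine (injective_iff_map_eq_zero _).2 fun c h => ?_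
  have h1 := Xi_u u' u c e0
  rw [h, zero_apply, eq_comm, map_eq_zero_iff _ u'.injective] at h1
  have h2 := congrArg (fun y : S4 => y 0) h1
  simpa [Rm_coe, e0] using h2

variable {p J k : V →L[ℝ] V} {r : Fin 4 → V →L[ℝ] V} {u : S4 →ₗᵢ[ℝ] V}
  {p' J' k' : V' →L[ℝ] V'} {r' : Fin 4 → V' →L[ℝ] V'} {u' : S4 →ₗᵢ[ℝ] V'}

theorem NF.u_ui (h : NF p J k r u) (q : Q4 p J k r) (y : V) : u (ui u y) = p y := by
  obtain ⟨x, hx⟩ := h.onto y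
  have : ui u y = x := ext_inner_right ℝ fun z => by
    rw [inner_ui, ← h.pu, ← q.ps, ← hx, u.inner_map_map]
  rw [this, hx]

theorem NF.ui_p (h : NF p J k r u) (q : Q4 p J k r) (y : V) : ui u (p y) = ui u y := by
  rw [← h.u_ui q, ui_u]

theorem NF.ui_r (h : NF p J k r u) (q : Q4 p J k r) (a : Fin 4) (y : V) :
    ui u (r a y) = r0 (qe a) (ui u y) := by
  rw [← q.rp, ← h.u_ui q, h.ru, ui_u]

theorem NF.ui_k (h : NF p J k r u) (q : Q4 p J k r) (y : V) : ui u (k y) = k0 (ui u y) := by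
  rw [← q.kp, ← h.u_ui q, h.ku, ui_u]

theorem NF.ui_J (h : NF p J k r u) (q : Q4 p J k r) (y : V) : ui u (J y) = J0 (ui u y) := by
  rw [← h.ui_p q, q.pJ, ← h.u_ui q, h.Ju, ui_u]

theorem NF.Xi_one (h : NF p J k r u) (q : Q4 p J k r) : Xi u u 1 = p :=
  ContinuousLinearMap.ext fun y => by rw [Xi_apply, Rm_one, h.u_ui q]

theorem NF.Xi_coe (h : NF p J k r u) (q : Q4 p J k r) (t : ℝ) : Xi u u (t : ℍ) = t • p := by
  rw [← h.Xi_one q, ← map_smul]; congr 1; ext <;> simp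

/-- intertwiners in a frame -/
structure It4 (p J k : V →L[ℝ] V) (r : Fin 4 → V →L[ℝ] V) (p' J' k' : V' →L[ℝ] V')
    (r' : Fin 4 → V' →L[ℝ] V') (A : V →L[ℝ] V') : Prop where
  pl : ∀ y, p' (A y) = A y
  pr : ∀ y, A (p y) = A y
  r : ∀ a y, A (r a y) = r' a (A y)
  J : ∀ y, A (J y) = J' (A y)
  k : ∀ y, A (k y) = k' (A y)

theorem NF.it4_iff (h : NF p J k r u) (q : Q4 p J k r) (h' : NF p' J' k' r' u')
    (A : V →L[ℝ] V') : It4 p J k r p' J' k' r' A ↔ ∃ c, A = Xi u' u c := by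
  constructor
  · intro i
    obtain ⟨c, hc⟩ := h.exists_quat h' (A : V →ₗ[ℝ] V') i.pl i.r i.J i.k
    exact ⟨c, ContinuousLinearMap.ext fun y => by rw [Xi_apply, ← i.pr, ← h.u_ui q]; exact hc _⟩
  · rintro ⟨c, rfl⟩
    exact ⟨fun y => h'.pu _, fun y => by rw [Xi_apply, h.ui_p q, Xi_apply],
      fun a y => by rw [Xi_apply, h.ui_r q, Rm_r0, Xi_apply, h'.ru],
      fun y => by rw [Xi_apply, h.ui_J q, Rm_J0, Xi_apply, h'.Ju],
      fun y => by rw [Xi_apply, h.ui_k q, Rm_k0, Xi_apply, h'.ku]⟩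

theorem skew_Xi_iff (u : S4 →ₗᵢ[ℝ] V) (c : ℍ) :
    (∀ v w, ⟪Xi u u c v, w⟫_ℝ = -⟪v, Xi u u c w⟫_ℝ) ↔ c.re = 0 := by
  have e : (∀ v w, ⟪Xi u u c v, w⟫_ℝ = -⟪v, Xi u u c w⟫_ℝ) ↔ star c = -c := by
    refine ⟨fun h => Xi_inj u u (ContinuousLinearMap.ext fun w => ext_inner_left ℝ fun v => ?_),
      fun h v w => ?_⟩
    · rw [← inner_Xi, h, map_neg, neg_apply, inner_neg_right]
    · rw [inner_Xi, h, map_neg, neg_apply, inner_neg_right]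
  rw [e, Quaternion.star_eq_neg]

theorem symm_Xi_iff (u : S4 →ₗᵢ[ℝ] V) (c : ℍ) :
    (∀ v w, ⟪Xi u u c v, w⟫_ℝ = ⟪v, Xi u u c w⟫_ℝ) ↔ c = c.re := by
  have e : (∀ v w, ⟪Xi u u c v, w⟫_ℝ = ⟪v, Xi u u c w⟫_ℝ) ↔ star c = c := by
    refine ⟨fun h => Xi_inj u u (ContinuousLinearMap.ext fun w => ext_inner_left ℝ fun v => ?_),
      fun h v w => ?_⟩
    · rw [← inner_Xi, h]
    · rw [inner_Xi, h]
  rw [e, Quaternion.star_eq_self]

/-- the Hilbert-Schmidt product -/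
def hs (A B : V →L[ℝ] V') : ℝ :=
  LinearMap.trace ℝ V (LinearMap.adjoint (A : V →ₗ[ℝ] V') ∘ₗ (B : V →ₗ[ℝ] V'))

theorem hs_eq_sum {κ : Type*} [Fintype κ] (b : OrthonormalBasis κ ℝ V) (A B : V →L[ℝ] V') :
    hs A B = ∑ i, ⟪A (b i), B (b i)⟫_ℝ := by
  rw [hs, LinearMap.trace_eq_sum_inner _ b]
  refine Finset.sum_congr rfl fun i _ => ?_
  rw [LinearMap.comp_apply, LinearMap.adjoint_inner_right]
  rfl

theorem hs_comm (A B : V →L[ℝ] V') : hs A B = hs B A := by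
  rw [hs_eq_sum (stdOrthonormalBasis ℝ V), hs_eq_sum (stdOrthonormalBasis ℝ V)]
  exact Finset.sum_congr rfl fun i _ => real_inner_comm _ _

theorem hs_add (A B C : V →L[ℝ] V') : hs (A + B) C = hs A C + hs B C := by
  simp [hs_eq_sum (stdOrthonormalBasis ℝ V), inner_add_left, Finset.sum_add_distrib]

theorem hs_sub (A B C : V →L[ℝ] V') : hs (A - B) C = hs A C - hs B C := by
  simp [hs_eq_sum (stdOrthonormalBasis ℝ V), inner_sub_left, Finset.sum_sub_distrib]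

theorem hs_neg (A C : V →L[ℝ] V') : hs (-A) C = -hs A C := by
  simp [hs_eq_sum (stdOrthonormalBasis ℝ V)]

theorem hs_smul (t : ℝ) (A C : V →L[ℝ] V') : hs (t • A) C = t * hs A C := by
  simp [hs_eq_sum (stdOrthonormalBasis ℝ V), inner_smul_left, Finset.mul_sum]

theorem hs_sum {κ : Type*} (s : Finset κ) (A : κ → V →L[ℝ] V') (C : V →L[ℝ] V') :
    hs (∑ i ∈ s, A i) C = ∑ i ∈ s, hs (A i) C := by
  simp only [hs_eq_sum (stdOrthonormalBasis ℝ V), sum_apply, sum_inner]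
  exact Finset.sum_comm

/-- moving factors to the other side -/
theorem hs_conj {X X' : V' →L[ℝ] V'} {Y Y' : V →L[ℝ] V}
    (hX : ∀ v w, ⟪X v, w⟫_ℝ = ⟪v, X' w⟫_ℝ) (hY : ∀ v w, ⟪Y v, w⟫_ℝ = ⟪v, Y' w⟫_ℝ)
    (A C : V →L[ℝ] V') : hs (X ∘L A ∘L Y) C = hs A (X' ∘L C ∘L Y') := by
  have e : LinearMap.adjoint ((X ∘L A ∘L Y : V →L[ℝ] V') : V →ₗ[ℝ] V') =
      (Y' : V →ₗ[ℝ] V) ∘ₗ LinearMap.adjoint (A : V →ₗ[ℝ] V') ∘ₗ (X' : V' →ₗ[ℝ] V') := by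
    symm
    rw [LinearMap.eq_adjoint_iff]
    intro v w
    simp only [LinearMap.comp_apply, ContinuousLinearMap.coe_coe, ContinuousLinearMap.comp_apply]
    rw [real_inner_comm, ← hY, real_inner_comm, LinearMap.adjoint_inner_left, real_inner_comm,
      ← hX, real_inner_comm]
    rfl
  rw [hs, hs, e, LinearMap.comp_assoc, LinearMap.trace_comp_comm']
  rfl

theorem trace_Rm (c : ℍ) : LinearMap.trace ℝ S4 (Rm c : S4 →ₗ[ℝ] S4) = 16 * c.re := by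
  have h1 : (Rm c : S4 →ₗ[ℝ] S4) = c.re • LinearMap.id + (Rm c.im : S4 →ₗ[ℝ] S4) := by
    refine LinearMap.ext fun x => ?_
    have : c = c.re • (1 : ℍ) + c.im := by ext <;> simp
    change Rm c x = c.re • x + Rm c.im x
    conv_lhs => rw [this]
    rw [Rm_add, Rm_smul, Rm_one]
  have h2 : LinearMap.trace ℝ S4 (Rm c.im : S4 →ₗ[ℝ] S4) = 0 := by
    rw [LinearMap.trace_eq_sum_inner _ (stdOrthonormalBasis ℝ S4)]
    refine Finset.sum_eq_zero fun i _ => ?_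
    have e := inner_Rm c.im (stdOrthonormalBasis ℝ S4 i) (stdOrthonormalBasis ℝ S4 i)
    have : star c.im = (-1 : ℝ) • c.im := by simp
    rw [this, Rm_smul, real_inner_smul_right, real_inner_comm] at e
    change ⟪_, Rm c.im _⟫_ℝ = 0
    linarith
  rw [h1, map_add, h2, map_smul, LinearMap.trace_id, finrank_S4]
  simp [mul_comm]

theorem trace_Xi (u : S4 →ₗᵢ[ℝ] V) (c : ℍ) :
    LinearMap.trace ℝ V (Xi u u c : V →ₗ[ℝ] V) = 16 * c.re := by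
  have e : (Xi u u c : V →ₗ[ℝ] V) =
      u.toLinearMap ∘ₗ ((Rm c : S4 →ₗ[ℝ] S4) ∘ₗ (ui u : V →ₗ[ℝ] S4)) := rfl
  rw [e, LinearMap.trace_comp_comm', ← trace_Rm]
  congr 1
  exact LinearMap.ext fun x => by simp

theorem hs_Xi (u' : S4 →ₗᵢ[ℝ] V') (u : S4 →ₗᵢ[ℝ] V) (c d : ℍ) :
    hs (Xi u' u c) (Xi u' u d) = 16 * ⟪c, d⟫_ℝ := by
  have e : LinearMap.adjoint (Xi u' u c : V →ₗ[ℝ] V') = (Xi u u' (star c) : V' →ₗ[ℝ] V) := by
    symm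
    rw [LinearMap.eq_adjoint_iff]
    intro v w
    have := inner_Xi u u' (star c) v w
    rwa [star_star] at this
  have e2 : (Xi u u' (star c) : V' →ₗ[ℝ] V) ∘ₗ (Xi u' u d : V →ₗ[ℝ] V') =
      (Xi u u (star c * d) : V →ₗ[ℝ] V) := LinearMap.ext (Xi_Xi u u' u _ _)
  rw [hs, e, e2, trace_Xi, inner_q]
  simp

end Crest.Agent.X212.Std94
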