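import Crest.Agent.X212.Std94.Pt

/-! The projector onto the intertwiners is a polynomial in `ρ, ρ', J, J', j, j'`. -/

set_option linter.unusedSectionVars false
noncomputable section
namespace Crest.Agent.X212.Std94
open Quaternion Module Finset Wz78
open scoped InnerProductSpace

/-- `K (K² - 4) (K + 4) / 384` -/
def qp {W : Type*} [AddCommGroup W] [Module ℝ W] (K : W → W) (y : W) : W :=
  (1 / 384 : ℝ) • (K (K (K (K y))) + (4 : ℝ) • K (K (K y)) - (4 : ℝ) • K (K y) - (16 : ℝ) • K y)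

/-- four commuting involutions of the range of `e` -/
theorem qp_four {W : Type*} [AddCommGroup W] [Module ℝ W] (c : Fin 4 → W →ₗ[ℝ] W) (e : W →ₗ[ℝ] W)
    (cc : ∀ i y, c i (c i y) = e y) (cm : ∀ i k y, c i (c k y) = c k (c i y))
    (ec : ∀ i y, e (c i y) = c i y) (ce : ∀ i y, c i (e y) = c i y) (K : W →ₗ[ℝ] W)
    (hK : ∀ y, K y = ∑ i, c i y) (i : Fin 4) (y : W) : c i (qp K y) = qp K y := by
  have h10 := cm 1 0
  have h20 := cm 2 0
  have h30 := cm 3 0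
  have h21 := cm 2 1
  have h31 := cm 3 1
  have h32 := cm 3 2
  simp only [Fin.sum_univ_four] at hK
  have k2 : K (K y) = (4 : ℝ) • e y + (2 : ℝ) • (c 0 (c 1 y) + c 0 (c 2 y) + c 0 (c 3 y) +
      c 1 (c 2 y) + c 1 (c 3 y) + c 2 (c 3 y)) := by
    simp only [hK, map_add, h10, h20, h30, h21, h31, h32, cc]
    module
  have k3 : K (K (K y)) = (10 : ℝ) • (c 0 y + c 1 y + c 2 y + c 3 y) + (6 : ℝ) •
      (c 0 (c 1 (c 2 y)) + c 0 (c 1 (c 3 y)) + c 0 (c 2 (c 3 y)) + c 1 (c 2 (c 3 y))) := by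
    rw [k2]
    simp only [hK, map_add, map_smul, h10, h20, h30, h21, h31, h32, cc, ec, ce]
    module
  have k4 : K (K (K (K y))) = (40 : ℝ) • e y + (32 : ℝ) • (c 0 (c 1 y) + c 0 (c 2 y) +
      c 0 (c 3 y) + c 1 (c 2 y) + c 1 (c 3 y) + c 2 (c 3 y)) +
      (24 : ℝ) • c 0 (c 1 (c 2 (c 3 y))) := by
    rw [k3]
    simp only [hK, map_add, map_smul, h10, h20, h30, h21, h31, h32, cc, ec, ce]
    module
  rw [qp, k4, k3, k2, hK y]
  fin_cases i <;>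
  · simp only [Fin.zero_eta, Fin.mk_one, Fin.reduceFinMk, map_add, map_sub, map_smul, h10, h20,
      h30, h21, h31, h32, cc, ec, ce]
    module

theorem qp_comm {W W' : Type*} [AddCommGroup W] [Module ℝ W] [AddCommGroup W'] [Module ℝ W']
    (φ : W →ₗ[ℝ] W') {K : W → W} {K' : W' → W'} (h : ∀ y, φ (K y) = K' (φ y)) (y : W) :
    φ (qp K y) = qp K' (φ y) := by
  simp only [qp, map_smul, map_add, map_sub, h]

theorem qp_eigen {W : Type*} [AddCommGroup W] [Module ℝ W] (K : W →ₗ[ℝ] W) {y : W}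
    (h : K y = (4 : ℝ) • y) : qp K y = y := by
  simp only [qp, h, map_smul]
  module

variable {V V' L : Type*} [NormedAddCommGroup V] [InnerProductSpace ℝ V] [FiniteDimensional ℝ V]
  [NormedAddCommGroup V'] [InnerProductSpace ℝ V'] [FiniteDimensional ℝ V']
  [NormedAddCommGroup L] [InnerProductSpace ℝ L] [FiniteDimensional ℝ L]
  {ι : Type*} [Fintype ι]

/-- `A ↦ X A Y` -/
def cj (X : V' →L[ℝ] V') (Y : V →L[ℝ] V) : (V →L[ℝ] V') →L[ℝ] V →L[ℝ] V' :=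
  ContinuousLinearMap.compL ℝ V V' V' X ∘L (ContinuousLinearMap.compL ℝ V V V').flip Y

theorem cj_eq (X : V' →L[ℝ] V') (Y : V →L[ℝ] V) (A : V →L[ℝ] V') : cj X Y A = X ∘L A ∘L Y := rfl

@[simp] theorem cj_apply (X : V' →L[ℝ] V') (Y : V →L[ℝ] V) (A : V →L[ℝ] V') (y : V) :
    cj X Y A y = X (A (Y y)) := rfl

/-- `K A = -∑ ρ' a A ρ a` -/
def Kc (ρ : ι → V →L[ℝ] V) (ρ' : ι → V' →L[ℝ] V') : (V →L[ℝ] V') →L[ℝ] V →L[ℝ] V' :=
  -∑ a, cj (ρ' a) (ρ a)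

/-- the complex linear part -/
def Jav (J : V →L[ℝ] V) (J' : V' →L[ℝ] V') : (V →L[ℝ] V') →L[ℝ] V →L[ℝ] V' :=
  (1 / 2 : ℝ) • (1 - cj J' J)

/-- the average over the real structures -/
def jav (j : L →L[ℝ] V →L[ℝ] V) (j' : L →L[ℝ] V' →L[ℝ] V') : (V →L[ℝ] V') →L[ℝ] V →L[ℝ] V' :=
  (1 / 2 : ℝ) • 1 + (1 / 4 : ℝ) •
    ∑ b, cj (j' (stdOrthonormalBasis ℝ L b)) (j (stdOrthonormalBasis ℝ L b))

/-- `K (K² - 4) (K + 4) / 384` as an operator -/
def qpL {W : Type*} [NormedAddCommGroup W] [NormedSpace ℝ W] (K : W →L[ℝ] W) : W →L[ℝ] W :=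
  (1 / 384 : ℝ) • (K * (K * (K * K)) + (4 : ℝ) • (K * (K * K)) - (4 : ℝ) • (K * K) - (16 : ℝ) • K)

theorem qpL_apply {W : Type*} [NormedAddCommGroup W] [NormedSpace ℝ W] (K : W →L[ℝ] W) (y : W) :
    qpL K y = qp K y := rfl

/-- the projector onto the intertwiners -/
def Pi (J : V →L[ℝ] V) (ρ : ι → V →L[ℝ] V) (j : L →L[ℝ] V →L[ℝ] V) (J' : V' →L[ℝ] V')
    (ρ' : ι → V' →L[ℝ] V') (j' : L →L[ℝ] V' →L[ℝ] V') : (V →L[ℝ] V') →L[ℝ] V →L[ℝ] V' :=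
  qpL (Kc ρ ρ') * (jav j j' * Jav J J')

theorem Kc_apply (ρ : ι → V →L[ℝ] V) (ρ' : ι → V' →L[ℝ] V') (A : V →L[ℝ] V') (y : V) :
    Kc ρ ρ' A y = -∑ a, ρ' a (A (ρ a y)) := by simp [Kc]

theorem Jav_apply (J : V →L[ℝ] V) (J' : V' →L[ℝ] V') (A : V →L[ℝ] V') (y : V) :
    Jav J J' A y = (1 / 2 : ℝ) • (A y - J' (A (J y))) := by simp [Jav]

theorem jav_apply (j : L →L[ℝ] V →L[ℝ] V) (j' : L →L[ℝ] V' →L[ℝ] V') (A : V →L[ℝ] V') (y : V) :
    jav j j' A y = (1 / 2 : ℝ) • A y + (1 / 4 : ℝ) •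
      ∑ b, j' (stdOrthonormalBasis ℝ L b) (A (j (stdOrthonormalBasis ℝ L b) y)) := by simp [jav]

variable {P : ι → ι → ℝ} {l il : L →L[ℝ] L} {p J : V →L[ℝ] V} {ρ : ι → V →L[ℝ] V}
  {j : L →L[ℝ] V →L[ℝ] V} {p' J' : V' →L[ℝ] V'} {ρ' : ι → V' →L[ℝ] V'}
  {j' : L →L[ℝ] V' →L[ℝ] V'} {U : Fin 4 → ι → ℝ} {s₀ : L}

theorem Pi_eq (A : V →L[ℝ] V') :
    Pi J ρ j J' ρ' j' A = qp (Kc ρ ρ') (jav j j' (Jav J J' A)) := rfl

theorem Kc_frame (h : PM P l il p J ρ j) (hU : ON P U) (ρ' : ι → V' →L[ℝ] V') (A : V →L[ℝ] V') :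
    Kc ρ ρ' A = ∑ i, -cj (fr U ρ' i) (fr U ρ i) A := by
  refine ContinuousLinearMap.ext fun y => ?_
  have e : ∀ a, ρ a y = ∑ i, U i a • fr U ρ i y := fun a => by
    conv_lhs => rw [hU.rho_eq h.cl a]
    simp
  simp only [Kc_apply, e, map_sum, map_smul, _root_.sum_apply, neg_apply, cj_apply,
    sum_neg_distrib]
  rw [sum_comm]
  simp only [fr_apply U ρ']

theorem jav_frame (h : PM P l il p J ρ j) (h' : PM P l il p' J' ρ' j') (hs : LF l il s₀)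
    {A : V →L[ℝ] V'} (hA : ∀ y, A (J y) = J' (A y)) (y : V) :
    jav j j' A y = (1 / 2 : ℝ) • (A y + j' s₀ (A (j s₀ y))) := by
  have kJ : ∀ z, j' s₀ (J' z) = -J' (j' s₀ z) := fun z =>
    congrArg (fun T : V' →L[ℝ] V' => T z) (h'.jJ s₀)
  have JJ : ∀ z, J' (J' z) = -z := fun z => congrArg (fun T : V' →L[ℝ] V' => T z) h'.Jsq
  have e : ∀ s, j' s (A (j s y)) = (⟪s₀, s⟫_ℝ ^ 2 + ⟪il s₀, s⟫_ℝ ^ 2) • j' s₀ (A (j s₀ y)) :=
    fun s => by
      rw [h.j_eq hs s, h'.j_eq hs s]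
      simp only [add_apply, smul_apply, mul_apply_eq_comp, map_add, map_smul, hA, kJ, map_neg, JJ]
      module
  have n : ∀ t : L, ‖t‖ = 1 → ∑ b, ⟪t, stdOrthonormalBasis ℝ L b⟫_ℝ ^ 2 = 1 := fun t ht => by
    have := (stdOrthonormalBasis ℝ L).sum_sq_norm_inner_left t
    simpa [ht] using this
  rw [jav_apply, sum_congr rfl fun b _ => e _, ← sum_smul, sum_add_distrib, n _ hs.n1, n _ hs.n2]
  module

/-- the image of `Pi` consists of intertwiners -/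
theorem itw_Pi (h : PM P l il p J ρ j) (h' : PM P l il p' J' ρ' j') (hU : ON P U)
    (hs : LF l il s₀) (A : V →L[ℝ] V') : Itw p J ρ j p' J' ρ' j' (Pi J ρ j J' ρ' j' A) := by
  have q := h.q4 hU hs
  have q' := h'.q4 hU hs
  have JJ : ∀ z, J (J z) = -z := fun z => congrArg (fun T : V →L[ℝ] V => T z) h.Jsq
  have JJ' : ∀ z, J' (J' z) = -z := fun z => congrArg (fun T : V' →L[ℝ] V' => T z) h'.Jsq
  set B := jav j j' (Jav J J' A) with hB
  have hJ0 : ∀ y, Jav J J' A (J y) = J' (Jav J J' A y) := fun y => by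
    simp only [Jav_apply, JJ, JJ', map_neg, map_smul, map_sub]
    module
  have hBy : ∀ y, B y = (1 / 2 : ℝ) • (Jav J J' A y + j' s₀ (Jav J J' A (j s₀ y))) :=
    jav_frame h h' hs hJ0
  have hc : ∀ i, -cj (fr U ρ' i) (fr U ρ i) (qp (Kc ρ ρ') B) = qp (Kc ρ ρ') B := fun i =>
    qp_four (fun i => (-cj (fr U ρ' i) (fr U ρ i) : (V →L[ℝ] V') →L[ℝ] V →L[ℝ] V'))
      (cj p' p : (V →L[ℝ] V') →L[ℝ] V →L[ℝ] V')
      (fun i y => ContinuousLinearMap.ext fun z => by simp [q.rr, q'.rr])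
      (fun i k y => ContinuousLinearMap.ext fun z => by
        rcases eq_or_ne i k with rfl | n
        · rfl
        · simp [q.ra _ _ n, q'.ra _ _ n])
      (fun i y => ContinuousLinearMap.ext fun z => by simp [q.rp, q'.pr])
      (fun i y => ContinuousLinearMap.ext fun z => by simp [q.pr, q'.rp])
      (Kc ρ ρ' : (V →L[ℝ] V') →L[ℝ] V →L[ℝ] V') (fun y => Kc_frame h hU ρ' y) i B
  set Y := qp (Kc ρ ρ') B with hY
  have hc' : ∀ i z, Y z = -fr U ρ' i (Y (fr U ρ i z)) := fun i z => by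
    conv_lhs => rw [← hc i]
    rfl
  have yp : ∀ z, Y (p z) = Y z := fun z => by rw [hc' 0 (p z), q.rp, ← hc']
  have py : ∀ z, p' (Y z) = Y z := fun z => by rw [hc' 0 z, map_neg, q'.pr]
  have com : ∀ (X : V' →L[ℝ] V') (Z : V →L[ℝ] V), (∀ i z, X (fr U ρ' i z) = fr U ρ' i (X z)) →
      (∀ i z, Z (fr U ρ i z) = fr U ρ i (Z z)) → ∀ C,
      cj X Z (Kc ρ ρ' C) = Kc ρ ρ' (cj X Z C) := fun X Z hX hZ C => by
    rw [Kc_frame h hU, Kc_frame h hU]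
    refine ContinuousLinearMap.ext fun z => ?_
    simp [hX, hZ]
  rw [itw_iff_it4 h h' hU hs, Pi_eq]
  refine ⟨py, yp, fun a z => ?_, fun z => ?_, fun z => ?_⟩
  · change Y _ = _
    rw [hc' a, q.rr, map_neg, yp, map_neg, neg_neg]
  · have e := qp_comm (cj J' J : (V →L[ℝ] V') →L[ℝ] V →L[ℝ] V').toLinearMap
      (com J' J (fun i z => (q'.rJ i z).symm) fun i z => (q.rJ i z).symm) B
    have e2 : cj J' J B = (-1 : ℝ) • B := ContinuousLinearMap.ext fun z => by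
      simp only [cj_apply, hBy, hJ0, q.kJ, q'.kJ, map_neg, map_smul, map_add, JJ', smul_apply]
      module
    have e3 := qp_comm ((-1 : ℝ) • LinearMap.id : (V →L[ℝ] V') →ₗ[ℝ] V →L[ℝ] V')
      (K := Kc ρ ρ') (K' := Kc ρ ρ') (fun y => by simp) B
    simp only [ContinuousLinearMap.coe_coe, e2] at e
    simp only [LinearMap.smul_apply, LinearMap.id_apply] at e3
    have e4 : J' (Y (J z)) = (-1 : ℝ) • Y z :=
      congrArg (fun T : V →L[ℝ] V' => T z) (e.trans e3.symm)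
    have e5 := congrArg J' e4
    rw [JJ', map_smul, neg_one_smul, neg_inj] at e5
    exact e5
  · have e := qp_comm (cj (j' s₀) (j s₀) : (V →L[ℝ] V') →L[ℝ] V →L[ℝ] V').toLinearMap
      (com _ _ q'.kr q.kr) B
    have e2 : Kc ρ ρ' (cj (j' s₀) (j s₀) B) = Kc ρ ρ' B := by
      rw [Kc_frame h hU, Kc_frame h hU]
      refine ContinuousLinearMap.ext fun z => ?_
      simp only [_root_.sum_apply, neg_apply, cj_apply, hBy, map_smul, map_add, q.kk, q'.kk,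
        q.pr, q'.rp, add_comm]
    have e3 : qp (Kc ρ ρ') (cj (j' s₀) (j s₀) B) = Y := by simp only [hY, qp, e2]
    simp only [ContinuousLinearMap.coe_coe, e3] at e
    have e4 : j' s₀ (Y (j s₀ z)) = Y z := congrArg (fun T : V →L[ℝ] V' => T z) e
    change Y _ = j' s₀ (Y z)
    rw [← e4, q'.kk, py]

theorem Itw.Kc (h : PM P l il p J ρ j) (h' : PM P l il p' J' ρ' j') (hU : ON P U)
    (hs : LF l il s₀) {A : V →L[ℝ] V'} (i : Itw p J ρ j p' J' ρ' j' A) :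
    Kc ρ ρ' A = (4 : ℝ) • A := by
  have i4 := (itw_iff_it4 h h' hU hs A).1 i
  rw [Kc_frame h hU]
  refine ContinuousLinearMap.ext fun z => ?_
  simp only [neg_apply, cj_apply, i4.r, (h'.q4 hU hs).rr, i.pl, neg_neg,
    Fin.sum_univ_four, add_apply, smul_apply]
  module

theorem Itw.Jav (h' : PM P l il p' J' ρ' j') {A : V →L[ℝ] V'}
    (i : Itw p J ρ j p' J' ρ' j' A) : Jav J J' A = A := by
  have JJ' : ∀ z, J' (J' z) = -z := fun z => congrArg (fun T : V' →L[ℝ] V' => T z) h'.Jsq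
  refine ContinuousLinearMap.ext fun z => ?_
  simp only [Jav_apply, i.J, JJ']
  module

theorem Itw.jav (h : PM P l il p J ρ j) (h' : PM P l il p' J' ρ' j') (hU : ON P U)
    (hs : LF l il s₀) {A : V →L[ℝ] V'} (i : Itw p J ρ j p' J' ρ' j' A) : jav j j' A = A := by
  refine ContinuousLinearMap.ext fun z => ?_
  rw [jav_frame h h' hs i.J, i.j, (h'.q4 hU hs).kk, i.pl]
  module

/-- `Pi` fixes the intertwiners -/
theorem Itw.Pi (h : PM P l il p J ρ j) (h' : PM P l il p' J' ρ' j') (hU : ON P U)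
    (hs : LF l il s₀) {A : V →L[ℝ] V'} (i : Itw p J ρ j p' J' ρ' j' A) :
    Pi J ρ j J' ρ' j' A = A := by
  rw [Pi_eq, i.Jav h', i.jav h h' hU hs]
  exact qp_eigen (Std94.Kc ρ ρ' : (V →L[ℝ] V') →L[ℝ] V →L[ℝ] V').toLinearMap (i.Kc h h' hU hs)

theorem hs_Kc (h : PM P l il p J ρ j) (h' : PM P l il p' J' ρ' j') (A C : V →L[ℝ] V') :
    hs (Kc ρ ρ' A) C = hs A (Kc ρ ρ' C) := by
  have e : ∀ A : V →L[ℝ] V', Kc ρ ρ' A = -∑ a, ρ' a ∘L A ∘L ρ a := fun A => by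
    simp [Kc, cj_eq]
  rw [hs_comm A, e, e, hs_neg, hs_neg, hs_sum, hs_sum]
  congr 1
  refine sum_congr rfl fun a _ => ?_
  rw [hs_conj (X' := -ρ' a) (Y' := -ρ a) (fun v w => by simp [h'.ρsk]) (fun v w => by simp [h.ρsk]),
    hs_comm]
  simp

theorem hs_Jav (h : PM P l il p J ρ j) (h' : PM P l il p' J' ρ' j') (A C : V →L[ℝ] V') :
    hs (Jav J J' A) C = hs A (Jav J J' C) := by
  have e : ∀ A : V →L[ℝ] V', Jav J J' A = (1 / 2 : ℝ) • (A - J' ∘L A ∘L J) := fun A => by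
    simp [Jav, cj_eq]
  rw [hs_comm A, e, e, hs_smul, hs_smul, hs_sub, hs_sub, hs_comm C A,
    hs_conj (X' := -J') (Y' := -J) (fun v w => by simp [h'.Jsk]) (fun v w => by simp [h.Jsk]),
    hs_comm A (_ ∘L _)]
  simp

theorem hs_jav (h : PM P l il p J ρ j) (h' : PM P l il p' J' ρ' j') (A C : V →L[ℝ] V') :
    hs (jav j j' A) C = hs A (jav j j' C) := by
  have e : ∀ A : V →L[ℝ] V', jav j j' A = (1 / 2 : ℝ) • A + (1 / 4 : ℝ) •
      ∑ b, j' (stdOrthonormalBasis ℝ L b) ∘L A ∘L j (stdOrthonormalBasis ℝ L b) := fun A => by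
    simp [jav, cj_eq]
  rw [hs_comm A, e, e, hs_add, hs_add, hs_smul, hs_smul, hs_smul, hs_smul, hs_sum, hs_sum,
    hs_comm C A]
  congr 2
  refine sum_congr rfl fun b _ => ?_
  rw [hs_conj (h'.jsym _) (h.jsym _), hs_comm]

/-- `A - Pi A` is orthogonal to the intertwiners -/
theorem hs_Pi (h : PM P l il p J ρ j) (h' : PM P l il p' J' ρ' j') (hU : ON P U)
    (hs₀ : LF l il s₀) (A : V →L[ℝ] V') {C : V →L[ℝ] V'} (i : Itw p J ρ j p' J' ρ' j' C) :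
    hs (Pi J ρ j J' ρ' j' A) C = hs A C := by
  have k : ∀ A, hs (Kc ρ ρ' A) C = 4 * hs A C := fun A => by
    rw [hs_Kc h h', i.Kc h h' hU hs₀, hs_comm, hs_smul, hs_comm]
  rw [Pi_eq, qp]
  simp only [hs_smul, hs_add, hs_sub, k]
  rw [hs_jav h h', i.jav h h' hU hs₀, hs_Jav h h', i.Jav h']
  ring

end Crest.Agent.X212.Std94
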