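import Crest.Agent.X212.Std94.Kl

/-! Local smooth intertwiners; the standard module in given frames. -/

set_option linter.unusedSectionVars false
noncomputable section
namespace Crest.Agent.X212.Std94
open Quaternion Module Finset Wz78 Filter
open scoped Manifold ContDiff Topology InnerProductSpace

variable {V V' L : Type} [NormedAddCommGroup V] [InnerProductSpace ℝ V] [FiniteDimensional ℝ V]
  [NormedAddCommGroup V'] [InnerProductSpace ℝ V'] [FiniteDimensional ℝ V']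
  [NormedAddCommGroup L] [InnerProductSpace ℝ L] [FiniteDimensional ℝ L]
  {ι : Type} [Fintype ι]

section pt
variable {P : ι → ι → ℝ} {l il : L →L[ℝ] L} {p J : V →L[ℝ] V} {ρ : ι → V →L[ℝ] V}
  {j : L →L[ℝ] V →L[ℝ] V} {p' J' : V' →L[ℝ] V'} {ρ' : ι → V' →L[ℝ] V'}
  {j' : L →L[ℝ] V' →L[ℝ] V'} {U : Fin 4 → ι → ℝ} {s₀ : L}

theorem Itw.smul {A : V →L[ℝ] V'} (i : Itw p J ρ j p' J' ρ' j' A) (t : ℝ) :
    Itw p J ρ j p' J' ρ' j' (t • A) :=
  ⟨fun y => by simp [i.pl], fun y => by simp [i.pr], fun a y => by simp [i.ρ],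
    fun y => by simp [i.J], fun s y => by simp [i.j]⟩

/-- intertwiners are conformal -/
theorem Itw.inner (h : PM P l il p J ρ j) (h' : PM P l il p' J' ρ' j') (hU : ON P U)
    (hs₀ : LF l il s₀) {A : V →L[ℝ] V'} (i : Itw p J ρ j p' J' ρ' j' A) (y z : V) :
    ⟪A y, A z⟫_ℝ = hs A A / 16 * ⟪y, p z⟫_ℝ := by
  obtain ⟨u, hu⟩ := h.exists_frm hU hs₀
  obtain ⟨u', hu'⟩ := h'.exists_frm hU hs₀
  obtain ⟨c, rfl⟩ := (itw_iff_Xi h h' hU hs₀ hu hu' A).1 i
  rw [inner_Xi, Xi_Xi, star_mul_self, hu.Xi_coe (h.q4 hU hs₀), hs_Xi, Quaternion.inner_self,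
    smul_apply, real_inner_smul_right]
  ring

theorem Itw.onto (h : PM P l il p J ρ j) (h' : PM P l il p' J' ρ' j') (hU : ON P U)
    (hs₀ : LF l il s₀) {A : V →L[ℝ] V'} (i : Itw p J ρ j p' J' ρ' j' A) (h0 : hs A A ≠ 0)
    (z : V') : ∃ y, A y = p' z := by
  obtain ⟨u, hu⟩ := h.exists_frm hU hs₀
  obtain ⟨u', hu'⟩ := h'.exists_frm hU hs₀
  obtain ⟨c, rfl⟩ := (itw_iff_Xi h h' hU hs₀ hu hu' A).1 i
  have c0 : c ≠ 0 := by rintro rfl; rw [hs_Xi] at h0; simp at h0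
  exact ⟨Xi u u' c⁻¹ z, by rw [Xi_Xi, mul_inv_cancel₀ c0, hu'.Xi_one (h'.q4 hU hs₀)]⟩

/-- the real structures of the standard module in the frame `s₀` -/
def j0 (il : L →L[ℝ] L) (s₀ : L) : L →L[ℝ] S4 →L[ℝ] S4 :=
  (innerSL ℝ s₀).smulRight k0 + (innerSL ℝ (il s₀)).smulRight (J0 * k0)

theorem j0_apply (il : L →L[ℝ] L) (s₀ s : L) (y : S4) :
    j0 il s₀ s y = ⟪s₀, s⟫_ℝ • k0 y + ⟪il s₀, s⟫_ℝ • J0 (k0 y) := rfl

theorem ON.UP (hU : ON P U) (i : Fin 4) (a : ι) : ∑ b, P a b * U i b = U i a := by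
  simp only [← hU.P, sum_mul, mul_assoc]
  rw [sum_comm]
  simp [← mul_sum, hU.on]

theorem r0_tq (U : Fin 4 → ι → ℝ) (a : ι) : r0 (tq U a) = ∑ i, U i a • r0 (qe i) :=
  ContinuousLinearMap.ext fun y => by
    simp only [tq_eq, Fin.sum_univ_four, r0_add, r0_smul, add_apply, smul_apply]

theorem ON.fr_std (hU : ON P U) (i : Fin 4) : fr U (fun a => r0 (tq U a)) i = r0 (qe i) := by
  refine ContinuousLinearMap.ext fun y => ?_
  simp only [fr, r0_tq, _root_.sum_apply, smul_apply, smul_sum, smul_smul]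
  rw [sum_comm]
  simp [← sum_smul, hU.on]

theorem PL.inner_il (h : PL l il) (s : L) : ⟪il s, s⟫_ℝ = 0 := by
  have := h.sk s s
  rw [real_inner_comm (il s) s] at this
  linarith

theorem j0_self (h : PL l il) (hs : LF l il s₀) : j0 il s₀ s₀ = k0 :=
  ContinuousLinearMap.ext fun y => by simp [j0_apply, h.inner_il, hs.n1]

/-- the standard module in the frames `U`, `s₀` -/
theorem pm_std (hU : ON P U) (h : PL l il) (hs : LF l il s₀) :
    PM P l il 1 J0 (fun a => r0 (tq U a)) (j0 il s₀) := by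
  have ii : ∀ s, il (il s) = -s := fun s => congrArg (fun T : L →L[ℝ] L => T s) h.sq
  have lt : l (il s₀) = il s₀ := by
    have := congrArg (fun T : L →L[ℝ] L => T s₀) h.comm
    simp only [mul_apply_eq_comp, hs.ls] at this
    exact this.symm
  refine ⟨ContinuousLinearMap.ext J0_J0, inner_J0, fun _ _ => rfl, one_mul _, ?_, by simp,
    ⟨fun a b => ContinuousLinearMap.ext fun y => ?_, fun _ => one_mul _, fun _ => mul_one _,
      fun a => ?_⟩, fun a => inner_r0 _, fun a => ContinuousLinearMap.ext fun y => (r0_J0 _ y).symm,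
    fun s v w => ?_, fun s => ContinuousLinearMap.ext fun y => ?_,
    fun s => ContinuousLinearMap.ext fun y => ?_, fun s => ContinuousLinearMap.ext fun y => ?_,
    fun s => ContinuousLinearMap.ext fun y => ?_, fun _ => one_mul _,
    fun a s => ContinuousLinearMap.ext fun y => ?_⟩
  · change LinearMap.trace ℝ S4 LinearMap.id = _
    rw [LinearMap.trace_id, finrank_S4]; norm_num
  · have e := r0_r0 (tq U a) (tq U b) y
    have n : ⟪tq U a, tq U b⟫_ℝ = P a b := by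
      rw [inner_q, ← hU.P, Fin.sum_univ_four]; rfl
    rw [n] at e
    exact e
  · refine ContinuousLinearMap.ext fun y => ?_
    simp only [r0_tq, _root_.sum_apply, smul_apply, smul_sum, smul_smul]
    rw [sum_comm]
    simp only [← sum_smul, hU.UP]
  · simp only [j0_apply, inner_add_left, inner_add_right, real_inner_smul_left,
      real_inner_smul_right, inner_J0, inner_k0, k0_J0, inner_neg_right, neg_neg]
  · simp only [mul_apply_eq_comp, neg_apply, j0_apply, k0_J0, map_neg, map_add, map_smul]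
    module
  · have a1 : ⟪s₀, il s⟫_ℝ = -⟪il s₀, s⟫_ℝ := by rw [h.sk, neg_neg]
    have a2 : ⟪il s₀, il s⟫_ℝ = ⟪s₀, s⟫_ℝ := by rw [h.sk, ii, inner_neg_right, neg_neg]
    simp only [mul_apply_eq_comp, j0_apply, a1, a2, map_add, map_smul, J0_J0]
    module
  · simp only [j0_apply, ← h.sym, hs.ls, lt]
  · have n : ‖l s‖ ^ 2 = ⟪s₀, s⟫_ℝ ^ 2 + ⟪il s₀, s⟫_ℝ ^ 2 := by
      have o := h.inner_il s₀
      have o' : ⟪s₀, il s₀⟫_ℝ = 0 := by rw [real_inner_comm, o]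
      have n1 : ⟪s₀, s₀⟫_ℝ = 1 := by simp [hs.n1]
      have n2 : ⟪il s₀, il s₀⟫_ℝ = 1 := by simp [hs.n2]
      rw [hs.dec, ← real_inner_self_eq_norm_sq]
      simp only [inner_add_left, inner_add_right, real_inner_smul_left, real_inner_smul_right, o,
        o', n1, n2]
      ring
    simp only [mul_apply_eq_comp, j0_apply, n, map_add, map_smul, k0_J0, k0_k0, map_neg, J0_J0,
      smul_apply, one_apply_eq_self]
    module
  · simp only [mul_apply_eq_comp, j0_apply, map_add, map_smul, k0_r0, r0_J0]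

/-- a normalised intertwiner from the standard module is a frame -/
theorem frm_of_itw (h : PM P l il p J ρ j) (hU : ON P U) (hl : PL l il) (hs₀ : LF l il s₀)
    {A : S4 →L[ℝ] V} (i : Itw 1 J0 (fun a => r0 (tq U a)) (j0 il s₀) p J ρ j A)
    (n : hs A A = 16) :
    ∃ u : S4 →ₗᵢ[ℝ] V, u.toContinuousLinearMap = A ∧ Frm U s₀ p J ρ j u := by
  have h0 := pm_std hU hl hs₀
  have i4 := (itw_iff_it4 h0 h hU hs₀ A).1 i
  have iso : ∀ y z, ⟪A y, A z⟫_ℝ = ⟪y, z⟫_ℝ := fun y z => by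
    rw [i.inner h0 h hU hs₀, n]; simp
  refine ⟨(A : S4 →ₗ[ℝ] V).isometryOfInner iso, rfl, i.pl,
    i.onto h0 h hU hs₀ (by rw [n]; norm_num), fun a y => ?_, fun y => (i.J y).symm, fun y => ?_⟩
  · have := i4.r a y
    rw [hU.fr_std] at this
    exact this.symm
  · have := i4.k y
    rw [j0_self hl hs₀] at this
    exact this.symm

theorem Frm.itw (h : PM P l il p J ρ j) (hU : ON P U) (hs₀ : LF l il s₀) {u : S4 →ₗᵢ[ℝ] V}
    (hu : Frm U s₀ p J ρ j u) :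
    Itw 1 J0 (fun a => r0 (tq U a)) (j0 il s₀) p J ρ j u.toContinuousLinearMap ∧
      hs u.toContinuousLinearMap u.toContinuousLinearMap = 16 := by
  refine ⟨⟨hu.pu, fun _ => rfl, fun a y => (hu.rho_u h hU a y).symm, fun y => (hu.Ju y).symm,
    fun s y => (hu.j_u h hs₀ s y).symm⟩, ?_⟩
  rw [hs_eq_sum (stdOrthonormalBasis ℝ S4)]
  simp [finrank_S4]

theorem ON.ct_back {o : ι → ι → ι → ι → ℝ} (hU : ON P U) (h : Alt o)
    (hP : ∀ a b c d, ∑ k, P a k * o k b c d = o a b c d) (a b c d : ι) :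
    o a b c d = ct (fun a i => U i a) (ct U o) a b c d := by
  rw [ct_ct]; simp only [hU.P]; exact (h.ct_proj hP a b c d).symm

theorem ON.of {o : ι → ι → ι → ι → ℝ} (hU : ON P U) (h : Alt o)
    (hP : ∀ a b c d, ∑ k, P a k * o k b c d = o a b c d)
    (hn : ∑ a, ∑ b, ∑ c, ∑ d, o a b c d ^ 2 = 24) (h0 : 0 < ct U o 0 1 2 3) : OF P o U := by
  have e1 : ∑ a, ∑ b, ∑ c, ∑ d, o a b c d ^ 2 = ∑ i, ∑ j, ∑ k, ∑ l, ct U o i j k l ^ 2 := by
    calc _ = ∑ a, ∑ b, ∑ c, ∑ d, ∑ i, ∑ j, ∑ k, ∑ l,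
          U i a * U j b * U k c * U l d * o a b c d * ct U o i j k l := by
          refine sum_congr rfl fun a _ => sum_congr rfl fun b _ => sum_congr rfl fun c _ =>
            sum_congr rfl fun d _ => ?_
          rw [sq]
          nth_rewrite 2 [hU.ct_back h hP a b c d]
          generalize ct U o = O
          simp only [ct, mul_sum]
          exact sum_congr rfl fun i _ => sum_congr rfl fun j _ => sum_congr rfl fun k _ =>
            sum_congr rfl fun l _ => by ring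
      _ = _ := by
          rw [sum8]
          simp only [← sum_mul, sq]
          rfl
  rw [hn, (h.ct U).sum_sq] at e1
  have h3 : ct U o 0 1 2 3 = 1 := by nlinarith
  have e : ct U o = eps := by
    funext i j k l; rw [(h.ct U).eq_eps, h3, one_mul]
  exact ⟨hU.on, hU.P, fun i j k l => by rw [e],
    fun a b c d => by rw [← e]; exact hU.ct_back h hP a b c d⟩

end pt

variable {E H : Type*} [NormedAddCommGroup E] [NormedSpace ℝ E] [TopologicalSpace H]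
  {I : ModelWithCorners ℝ E H} {M : Type} [TopologicalSpace M] [ChartedSpace H M]

theorem smAt_inv_sqrt {f : M → ℝ} {x : M} (hf : ContMDiffAt I 𝓘(ℝ, ℝ) ∞ f x) (h : 0 < f x) :
    ContMDiffAt I 𝓘(ℝ, ℝ) ∞ (fun y => (√(f y))⁻¹) x :=
  ((contDiffAt_id.sqrt h.ne').inv (Real.sqrt_pos.2 h).ne').comp_contMDiffAt hf

/-- **an intertwiner at one point extends to a smooth intertwiner nearby** -/
theorem exists_local_itw {x₀ : M} {P : M → ι → ι → ℝ} {l : M → L →L[ℝ] L} {il : L →L[ℝ] L}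
    {p : M → V →L[ℝ] V} {J : V →L[ℝ] V} {ρ : M → ι → V →L[ℝ] V} {j : M → L →L[ℝ] V →L[ℝ] V}
    {p' : M → V' →L[ℝ] V'} {J' : V' →L[ℝ] V'} {ρ' : M → ι → V' →L[ℝ] V'}
    {j' : M → L →L[ℝ] V' →L[ℝ] V'}
    (h : ∀ᶠ x in 𝓝 x₀, (∃ U, ON (P x) U) ∧ PL (l x) il ∧
      PM (P x) (l x) il (p x) J (ρ x) (j x) ∧ PM (P x) (l x) il (p' x) J' (ρ' x) (j' x) ∧
      (∀ a, (smAt I x).mem fun y => ρ y a) ∧ (smAt I x).mem j ∧
      (∀ a, (smAt I x).mem fun y => ρ' y a) ∧ (smAt I x).mem j')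
    {A₀ : V →L[ℝ] V'} (i₀ : Itw (p x₀) J (ρ x₀) (j x₀) (p' x₀) J' (ρ' x₀) (j' x₀) A₀)
    (n₀ : hs A₀ A₀ = 16) :
    ∃ u : M → V →L[ℝ] V', u x₀ = A₀ ∧ ∀ᶠ x in 𝓝 x₀, ContMDiffAt I 𝓘(ℝ, V →L[ℝ] V') ∞ u x ∧
      Itw (p x) J (ρ x) (j x) (p' x) J' (ρ' x) (j' x) (u x) ∧ hs (u x) (u x) = 16 := by
  let a : M → V →L[ℝ] V' := fun x => Pi J (ρ x) (j x) J' (ρ' x) (j' x) A₀
  let c : M → ℝ := fun x => (1 / 16 : ℝ) • hs (a x) (a x)
  have sa : ∀ᶠ x in 𝓝 x₀, (smAt I x).mem a ∧ (smAt I x).mem c := h.mono fun x hx => by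
    obtain ⟨-, -, -, -, s1, s2, s3, s4⟩ := hx
    have := Kl.appc (Kl.Pi ((smAt I x).const J) s1 s2 ((smAt I x).const J') s3 s4) A₀
    exact ⟨this, Kl.csmul _ (Kl.hs this this)⟩
  have a0 : a x₀ = A₀ := by
    obtain ⟨⟨U, hU⟩, h2, h3, h4, -⟩ := h.self_of_nhds
    obtain ⟨s, hs⟩ := h2.exists_lf
    exact i₀.Pi h3 h4 hU hs
  have c0 : c x₀ = 1 := by simp only [c, a0, n₀]; norm_num
  have cp : ∀ᶠ x in 𝓝 x₀, 0 < c x :=
    (ContMDiffAt.continuousAt sa.self_of_nhds.2).eventually (lt_mem_nhds (by rw [c0]; norm_num))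
  refine ⟨fun x => (√(c x))⁻¹ • a x, by simp [c0, a0], ?_⟩
  filter_upwards [h, sa, cp] with x hx sx px
  obtain ⟨⟨U, hU⟩, h2, h3, h4, -⟩ := hx
  obtain ⟨s, hs⟩ := h2.exists_lf
  refine ⟨(smAt_inv_sqrt sx.2 px).smul sx.1, (itw_Pi h3 h4 hU hs A₀).smul _, ?_⟩
  have e : Std94.hs (a x) (a x) = 16 * c x := by simp only [c, smul_eq_mul]; ring
  rw [hs_smul, hs_comm, hs_smul, e, ← mul_assoc, ← mul_inv, Real.mul_self_sqrt px.le]
  field_simp

end Crest.Agent.X212.Std94
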