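import Mathlib

/-! The standard spin^u module `(ℍ ⊕ ℍ) ⊗ ℂ`.  Components: `0 = (S⁺, re)`, `1 = (S⁻, re)`,
`2 = (S⁺, im)`, `3 = (S⁻, im)`. -/

noncomputable section
namespace Crest.Agent.X212.Std94
open Quaternion Module
open scoped InnerProductSpace

/-- the standard module -/
abbrev S4 : Type := PiLp 2 (fun _ : Fin 4 => ℍ)

/-- a vector from its four quaternion components -/
def mk4 (a b c d : ℍ) : S4 := WithLp.toLp 2 ![a, b, c, d]

@[simp] theorem mk4_0 (a b c d : ℍ) : mk4 a b c d 0 = a := rfl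
@[simp] theorem mk4_1 (a b c d : ℍ) : mk4 a b c d 1 = b := rfl
@[simp] theorem mk4_2 (a b c d : ℍ) : mk4 a b c d 2 = c := rfl
@[simp] theorem mk4_3 (a b c d : ℍ) : mk4 a b c d 3 = d := rfl

theorem ext4 {x y : S4} (h0 : x 0 = y 0) (h1 : x 1 = y 1) (h2 : x 2 = y 2) (h3 : x 3 = y 3) :
    x = y := by
  ext1 i
  fin_cases i
  exacts [h0, h1, h2, h3]

theorem inner4 (x y : S4) :
    ⟪x, y⟫_ℝ = ⟪x 0, y 0⟫_ℝ + ⟪x 1, y 1⟫_ℝ + ⟪x 2, y 2⟫_ℝ + ⟪x 3, y 3⟫_ℝ := by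
  rw [PiLp.inner_apply, Fin.sum_univ_four]

theorem finrank_S4 : finrank ℝ S4 = 16 := by
  rw [(WithLp.linearEquiv 2 ℝ (Fin 4 → ℍ)).finrank_eq, Module.finrank_pi_fintype]
  simp [Quaternion.finrank_eq_four]

/-- the basis `1, i, j, k` -/
def qe : Fin 4 → ℍ := ![1, ⟨0, 1, 0, 0⟩, ⟨0, 0, 1, 0⟩, ⟨0, 0, 0, 1⟩]

theorem qe_0 : qe 0 = 1 := rfl
theorem qe_1 : qe 1 = ⟨0, 1, 0, 0⟩ := rfl
theorem qe_2 : qe 2 = ⟨0, 0, 1, 0⟩ := rfl
theorem qe_3 : qe 3 = ⟨0, 0, 0, 1⟩ := rfl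

theorem inner_q (a b : ℍ) :
    ⟪a, b⟫_ℝ = a.re * b.re + a.imI * b.imI + a.imJ * b.imJ + a.imK * b.imK := by
  rw [Quaternion.inner_def]; simp

/-- Clifford multiplication by `t ∈ ℍ = ℝ⁴` -/
def r0 (t : ℍ) : S4 →L[ℝ] S4 := LinearMap.toContinuousLinearMap
  { toFun := fun x => mk4 (-(t * x 1)) (star t * x 0) (-(t * x 3)) (star t * x 2)
    map_add' := fun x y => ext4 (by simp [mul_add, add_comm]) (by simp [mul_add])
      (by simp [mul_add, add_comm]) (by simp [mul_add])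
    map_smul' := fun c x => ext4 (by simp) (by simp) (by simp) (by simp) }

/-- the complex structure -/
def J0 : S4 →L[ℝ] S4 := LinearMap.toContinuousLinearMap
  { toFun := fun x => mk4 (-x 2) (-x 3) (x 0) (x 1)
    map_add' := fun x y => ext4 (by simp [add_comm]) (by simp [add_comm]) (by simp) (by simp)
    map_smul' := fun c x => ext4 (by simp) (by simp) (by simp) (by simp) }

/-- the real structure -/
def k0 : S4 →L[ℝ] S4 := LinearMap.toContinuousLinearMap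
  { toFun := fun x => mk4 (x 0) (x 1) (-x 2) (-x 3)
    map_add' := fun x y => ext4 (by simp) (by simp) (by simp [add_comm]) (by simp [add_comm])
    map_smul' := fun c x => ext4 (by simp) (by simp) (by simp) (by simp) }

/-- the commutant: right multiplication by `star c` -/
def Rm (c : ℍ) : S4 →L[ℝ] S4 := LinearMap.toContinuousLinearMap
  { toFun := fun x => mk4 (x 0 * star c) (x 1 * star c) (x 2 * star c) (x 3 * star c)
    map_add' := fun x y => ext4 (by simp [add_mul]) (by simp [add_mul]) (by simp [add_mul])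
      (by simp [add_mul])
    map_smul' := fun c x => ext4 (by simp) (by simp) (by simp) (by simp) }

theorem r0_apply (t : ℍ) (x : S4) :
    r0 t x = mk4 (-(t * x 1)) (star t * x 0) (-(t * x 3)) (star t * x 2) := rfl
theorem J0_apply (x : S4) : J0 x = mk4 (-x 2) (-x 3) (x 0) (x 1) := rfl
theorem k0_apply (x : S4) : k0 x = mk4 (x 0) (x 1) (-x 2) (-x 3) := rfl
theorem Rm_apply (c : ℍ) (x : S4) :
    Rm c x = mk4 (x 0 * star c) (x 1 * star c) (x 2 * star c) (x 3 * star c) := rfl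

theorem Rm_coe (c : ℍ) (x : S4) (i : Fin 4) : Rm c x i = x i * star c := by
  fin_cases i <;> rfl

theorem Rm_one (x : S4) : Rm 1 x = x := by ext1 i; simp [Rm_coe]
theorem Rm_mul (c d : ℍ) (x : S4) : Rm (c * d) x = Rm c (Rm d x) := by
  ext1 i; simp [Rm_coe, mul_assoc]
theorem Rm_add (c d : ℍ) (x : S4) : Rm (c + d) x = Rm c x + Rm d x := by
  ext1 i; simp [Rm_coe, mul_add]
theorem Rm_smul (s : ℝ) (c : ℍ) (x : S4) : Rm (s • c) x = s • Rm c x := by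
  ext1 i; simp [Rm_coe]
theorem Rm_r0 (c t : ℍ) (x : S4) : Rm c (r0 t x) = r0 t (Rm c x) :=
  ext4 (by simp [Rm_apply, r0_apply, mul_assoc]) (by simp [Rm_apply, r0_apply, mul_assoc])
    (by simp [Rm_apply, r0_apply, mul_assoc]) (by simp [Rm_apply, r0_apply, mul_assoc])
theorem Rm_J0 (c : ℍ) (x : S4) : Rm c (J0 x) = J0 (Rm c x) :=
  ext4 (by simp [Rm_apply, J0_apply]) (by simp [Rm_apply, J0_apply]) rfl rfl
theorem Rm_k0 (c : ℍ) (x : S4) : Rm c (k0 x) = k0 (Rm c x) :=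
  ext4 rfl rfl (by simp [Rm_apply, k0_apply]) (by simp [Rm_apply, k0_apply])

theorem inner_mul_star (a b c : ℍ) : ⟪a * star c, b⟫_ℝ = ⟪a, b * c⟫_ℝ := by
  simp [inner_q]; ring

theorem inner_left_mul (t a b : ℍ) : ⟪t * a, b⟫_ℝ = ⟪a, star t * b⟫_ℝ := by
  simp [inner_q]; ring

theorem inner_Rm (c : ℍ) (x y : S4) : ⟪Rm c x, y⟫_ℝ = ⟪x, Rm (star c) y⟫_ℝ := by
  simp only [inner4, Rm_coe, inner_mul_star, star_star]

theorem r0_add (s t : ℍ) (x : S4) : r0 (s + t) x = r0 s x + r0 t x :=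
  ext4 (by simp [r0_apply, add_mul, add_comm]) (by simp [r0_apply, add_mul])
    (by simp [r0_apply, add_mul, add_comm]) (by simp [r0_apply, add_mul])
theorem r0_smul (s : ℝ) (t : ℍ) (x : S4) : r0 (s • t) x = s • r0 t x :=
  ext4 (by simp [r0_apply]) (by simp [r0_apply]) (by simp [r0_apply]) (by simp [r0_apply])

theorem inner_r0 (t : ℍ) (x y : S4) : ⟪r0 t x, y⟫_ℝ = -⟪x, r0 t y⟫_ℝ := by
  simp only [inner4, r0_apply, mk4_0, mk4_1, mk4_2, mk4_3, inner_neg_left, inner_neg_right,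
    inner_left_mul, star_star]
  ring

theorem r0_r0 (s t : ℍ) (x : S4) : r0 s (r0 t x) + r0 t (r0 s x) = (-2 * ⟪s, t⟫_ℝ) • x := by
  have h1 : s * star t + t * star s = ((2 * ⟪s, t⟫_ℝ : ℝ) : ℍ) := by
    ext <;> simp [inner_q] <;> ring
  have h2 : star s * t + star t * s = ((2 * ⟪s, t⟫_ℝ : ℝ) : ℍ) := by
    ext <;> simp [inner_q] <;> ring
  have k1 : ∀ y : ℍ, -(s * (star t * y)) + -(t * (star s * y)) = (-2 * ⟪s, t⟫_ℝ) • y := fun y => by
    rw [← mul_assoc, ← mul_assoc, ← neg_add, ← add_mul, h1, coe_mul_eq_smul, neg_mul, neg_smul]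
  have k2 : ∀ y : ℍ, star s * -(t * y) + star t * -(s * y) = (-2 * ⟪s, t⟫_ℝ) • y := fun y => by
    rw [mul_neg, mul_neg, ← mul_assoc, ← mul_assoc, ← neg_add, ← add_mul, h2, coe_mul_eq_smul,
      neg_mul, neg_smul]
  exact ext4 (k1 _) (k2 _) (k1 _) (k2 _)

theorem inner_J0 (x y : S4) : ⟪J0 x, y⟫_ℝ = -⟪x, J0 y⟫_ℝ := by
  simp only [inner4, J0_apply, mk4_0, mk4_1, mk4_2, mk4_3, inner_neg_left, inner_neg_right]
  ring
theorem inner_k0 (x y : S4) : ⟪k0 x, y⟫_ℝ = ⟪x, k0 y⟫_ℝ := by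
  simp only [inner4, k0_apply, mk4_0, mk4_1, mk4_2, mk4_3, inner_neg_left, inner_neg_right]
theorem J0_J0 (x : S4) : J0 (J0 x) = -x :=
  ext4 (by simp [J0_apply]) (by simp [J0_apply]) (by simp [J0_apply]) (by simp [J0_apply])
theorem k0_k0 (x : S4) : k0 (k0 x) = x :=
  ext4 rfl rfl (by simp [k0_apply]) (by simp [k0_apply])
theorem k0_J0 (x : S4) : k0 (J0 x) = -J0 (k0 x) :=
  ext4 (by simp [k0_apply, J0_apply]) (by simp [k0_apply, J0_apply])
    (by simp [k0_apply, J0_apply]) (by simp [k0_apply, J0_apply])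
theorem r0_J0 (t : ℍ) (x : S4) : r0 t (J0 x) = J0 (r0 t x) :=
  ext4 (by simp [r0_apply, J0_apply]) (by simp [r0_apply, J0_apply])
    (by simp [r0_apply, J0_apply]) (by simp [r0_apply, J0_apply])
theorem k0_r0 (t : ℍ) (x : S4) : k0 (r0 t x) = r0 t (k0 x) :=
  ext4 (by simp [r0_apply, k0_apply]) (by simp [r0_apply, k0_apply])
    (by simp [r0_apply, k0_apply]) (by simp [r0_apply, k0_apply])

/-- the volume element is `-1` on `S⁺` and `+1` on `S⁻` -/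
theorem om0 (x : S4) :
    r0 (qe 0) (r0 (qe 1) (r0 (qe 2) (r0 (qe 3) x))) = mk4 (-x 0) (x 1) (-x 2) (x 3) := by
  refine ext4 ?_ ?_ ?_ ?_ <;> (ext <;> simp [r0_apply, qe_0, qe_1, qe_2, qe_3])

/-- the cyclic vector -/
def e0 : S4 := mk4 1 0 0 0

theorem cyc0 (q : ℍ) : mk4 q 0 0 0 = q.re • e0 + q.imI • r0 (qe 0) (r0 (qe 1) e0) +
    q.imJ • r0 (qe 0) (r0 (qe 2) e0) + q.imK • r0 (qe 0) (r0 (qe 3) e0) := by
  refine ext4 ?_ ?_ ?_ ?_ <;> (ext <;> simp [r0_apply, e0, qe_0, qe_1, qe_2, qe_3])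

theorem cyc (x : S4) : x = mk4 (x 0) 0 0 0 + r0 (qe 0) (mk4 (x 1) 0 0 0) + J0 (mk4 (x 2) 0 0 0) +
    J0 (r0 (qe 0) (mk4 (x 3) 0 0 0)) := by
  refine ext4 ?_ ?_ ?_ ?_ <;> simp [r0_apply, J0_apply, qe_0]

/-- a map commuting with `r0` and `J0` is determined by its value on `e0` -/
theorem zero_of_e0 {W : Type*} [AddCommGroup W] [Module ℝ W] (B : S4 →ₗ[ℝ] W)
    (r : Fin 4 → W →ₗ[ℝ] W) (J : W →ₗ[ℝ] W) (hr : ∀ a x, B (r0 (qe a) x) = r a (B x))
    (hJ : ∀ x, B (J0 x) = J (B x)) (h0 : B e0 = 0) (x : S4) : B x = 0 := by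
  have h : ∀ q, B (mk4 q 0 0 0) = 0 := fun q => by
    rw [cyc0]; simp [hr, h0]
  rw [cyc x]
  simp [hr, hJ, h]

/-- the commutant of the standard module is `ℍ` -/
theorem exists_Rm (B : S4 →ₗ[ℝ] S4) (hr : ∀ a x, B (r0 (qe a) x) = r0 (qe a) (B x))
    (hJ : ∀ x, B (J0 x) = J0 (B x)) (hk : ∀ x, B (k0 x) = k0 (B x)) :
    ∃ c, ∀ x, B x = Rm c x := by
  have h1 : k0 (B e0) = B e0 := by
    rw [← hk]; congr 1; exact ext4 rfl rfl (by simp [k0_apply, e0]) (by simp [k0_apply, e0])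
  have h2 : mk4 (-B e0 0) (B e0 1) (-B e0 2) (B e0 3) = -B e0 := by
    rw [← om0, ← hr, ← hr, ← hr, ← hr, om0, ← map_neg]
    congr 1
    exact ext4 (by simp [e0]) (by simp [e0]) (by simp [e0]) (by simp [e0])
  have z : ∀ y : ℍ, -y = y → y = 0 := fun y hy => by
    have : (2 : ℝ) • y = 0 := by rw [two_smul]; nth_rewrite 1 [← hy]; simp
    simpa using this
  have c2 : B e0 2 = 0 := z _ (congrArg (fun y : S4 => y 2) h1)
  have c3 : B e0 3 = 0 := z _ (congrArg (fun y : S4 => y 3) h1)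
  have c1 : B e0 1 = 0 := z _ (congrArg (fun y : S4 => y 1) h2).symm
  refine ⟨star (B e0 0), fun x => sub_eq_zero.1 ?_⟩
  refine zero_of_e0 (B - (Rm (star (B e0 0)) : S4 →ₗ[ℝ] S4)) (fun a => r0 (qe a)) J0
    (fun a x => by simp [hr, Rm_r0]) (fun x => by simp [hJ, Rm_J0]) ?_ x
  have he : Rm (star (B e0 0)) e0 = mk4 (B e0 0) 0 0 0 := by
    refine ext4 ?_ ?_ ?_ ?_ <;> simp only [Rm_apply, mk4_0, mk4_1, mk4_2, mk4_3] <;> simp [e0]
  have he' : B e0 = mk4 (B e0 0) 0 0 0 := ext4 rfl c1 c2 c3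
  exact sub_eq_zero.2 (he'.trans he.symm)

end Crest.Agent.X212.Std94
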